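import Mathlib

/-! Row 292: Baire category toolkit (Kuratowski–Ulam, category quantifier, cylinders). -/

set_option autoImplicit false

open Filter Set Topology TopologicalSpace

namespace Crest.Agent.R292

variable {X Y : Type*} [TopologicalSpace X] [TopologicalSpace Y]

theorem freq_exists {ι : Sort*} [Countable ι] {p : ι → X → Prop}
    (h : ∃ᶠ x in residual X, ∃ i, p i x) : ∃ i, ∃ᶠ x in residual X, p i x := by
  by_contra hc
  push Not at hc
  apply h
  have := eventually_countable_forall.2 hc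
  filter_upwards [this] with x hx
  exact not_exists.2 hx

theorem freq_of_open [BaireSpace X] {U : Set X} (hU : IsOpen U) (hne : U.Nonempty) {p : X → Prop}
    (h : ∀ᶠ x in residual X, x ∈ U → p x) : ∃ᶠ x in residual X, x ∈ U ∧ p x := by
  intro hc
  have h2 : ∀ᶠ x in residual X, x ∉ U := by
    filter_upwards [h, hc] with x h1 h2 hx
    exact h2 ⟨hx, h1 hx⟩
  obtain ⟨x, hx, hx'⟩ := (dense_of_mem_residual h2).inter_open_nonempty U hU hne
  exact hx' hx

theorem freq_of_ev [BaireSpace X] [Nonempty X] {p : X → Prop} (h : ∀ᶠ x in residual X, p x) :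
    ∃ᶠ x in residual X, p x :=
  (freq_of_open isOpen_univ univ_nonempty (h.mono fun _ hx _ => hx)).mono fun _ hx => hx.2

theorem exists_of_ev_open [BaireSpace X] {U : Set X} (hU : IsOpen U) (hne : U.Nonempty)
    {p : X → Prop} (h : ∀ᶠ x in residual X, p x) : ∃ x ∈ U, p x :=
  (freq_of_open hU hne (h.mono fun _ hx _ => hx)).exists

theorem exists_open_of_freq [MeasurableSpace X] [BorelSpace X] {p : X → Prop} (hp : Measurable p)
    (h : ∃ᶠ x in residual X, p x) :
    ∃ U, IsOpen U ∧ U.Nonempty ∧ ∀ᶠ x in residual X, x ∈ U → p x := by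
  have hm : MeasurableSet {x | p x} := measurableSet_setOfPred.2 hp
  obtain ⟨U, hU, hs⟩ := hm.residualEq_isOpen
  have hs' : ∀ᶠ x in residual X, p x ↔ x ∈ U := by
    filter_upwards [hs] with x hx
    exact Iff.of_eq hx
  refine ⟨U, hU, ?_, hs'.mono fun x hx => hx.2⟩
  obtain ⟨x, hx, hx'⟩ := (h.and_eventually hs').exists
  exact ⟨x, hx'.1 hx⟩

theorem ev_pull {f : X → Y} (hc : Continuous f) (ho : IsOpenMap f) {p : Y → Prop}
    (h : ∀ᶠ y in residual Y, p y) : ∀ᶠ x in residual X, p (f x) :=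
  (tendsto_residual_of_isOpenMap hc ho).eventually h

theorem freq_pull [BaireSpace X] [MeasurableSpace Y] [BorelSpace Y] {f : X → Y}
    (hc : Continuous f) (ho : IsOpenMap f) (hs : Function.Surjective f) {p : Y → Prop}
    (hp : Measurable p) (h : ∃ᶠ y in residual Y, p y) : ∃ᶠ x in residual X, p (f x) := by
  obtain ⟨U, hU, ⟨y, hy⟩, h'⟩ := exists_open_of_freq hp h
  obtain ⟨x, rfl⟩ := hs y
  exact (freq_of_open (hU.preimage hc) ⟨x, hy⟩ (ev_pull hc ho h')).mono fun _ hx => hx.2

theorem ev_push [BaireSpace X] [MeasurableSpace Y] [BorelSpace Y] {f : X → Y}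
    (hc : Continuous f) (ho : IsOpenMap f) (hs : Function.Surjective f) {p : Y → Prop}
    (hp : Measurable p) (h : ∀ᶠ x in residual X, p (f x)) : ∀ᶠ y in residual Y, p y := by
  by_contra hn
  rw [not_eventually] at hn
  exact freq_pull hc ho hs hp.not hn (h.mono fun _ hx => not_not.2 hx)

/-- The Kuratowski–Ulam theorem. -/
theorem ku [SecondCountableTopology Y] {p : X × Y → Prop} (h : ∀ᶠ z in residual (X × Y), p z) :
    ∀ᶠ x in residual X, ∀ᶠ y in residual Y, p (x, y) := by
  obtain ⟨S, hSo, hSd, hSc, hS⟩ := mem_residual_iff.1 h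
  have key : ∀ U ∈ S, ∀ᶠ x in residual X, ∀ᶠ y in residual Y, (x, y) ∈ U := by
    intro U hU
    have h1 : ∀ V ∈ countableBasis Y, ∀ᶠ x in residual X, ∃ y ∈ V, (x, y) ∈ U := by
      intro V hV
      have hVo := isOpen_of_mem_countableBasis hV
      have hVn := nonempty_of_mem_countableBasis hV
      have e : {x | ∃ y ∈ V, (x, y) ∈ U} = Prod.fst '' (U ∩ univ ×ˢ V) := by
        ext x
        simp only [mem_ofPred_eq, mem_image, mem_inter_iff, mem_prod, mem_univ, true_and,
          Prod.exists, exists_and_right, exists_eq_right]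
        exact exists_congr fun y => and_comm
      refine residual_of_dense_open (s := {x | ∃ y ∈ V, (x, y) ∈ U}) ?_ ?_
      · rw [e]
        exact isOpenMap_fst _ ((hSo U hU).inter (isOpen_univ.prod hVo))
      · rw [dense_iff_inter_open]
        intro W hW hWn
        obtain ⟨⟨x, y⟩, ⟨hx, hy⟩, hz⟩ :=
          (hSd U hU).inter_open_nonempty (W ×ˢ V) (hW.prod hVo) (hWn.prod hVn)
        exact ⟨x, hx, y, hy, hz⟩
    have h2 := (eventually_countable_ball (countable_countableBasis Y)).2 h1
    filter_upwards [h2] with x hx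
    refine residual_of_dense_open (s := {y | (x, y) ∈ U})
      ((hSo U hU).preimage (Continuous.prodMk_right x)) ?_
    rw [(isBasis_countableBasis Y).dense_iff]
    intro V hV _
    obtain ⟨y, hy, hy'⟩ := hx V hV
    exact ⟨y, hy, hy'⟩
  have h3 := (eventually_countable_ball hSc).2 key
  filter_upwards [h3] with x hx
  have h4 := (eventually_countable_ball hSc).2 hx
  filter_upwards [h4] with y hy
  exact hS (mem_sInter.2 hy)

section Borel

variable [MeasurableSpace X] [BorelSpace X] [MeasurableSpace Y] [BorelSpace Y]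
  [SecondCountableTopology Y]

/-- Converse of the Kuratowski–Ulam theorem for Borel predicates. -/
theorem ku_conv [BaireSpace X] [BaireSpace Y] {p : X × Y → Prop} (hp : Measurable p)
    (h : ∀ᶠ x in residual X, ∀ᶠ y in residual Y, p (x, y)) : ∀ᶠ z in residual (X × Y), p z := by
  by_contra hn
  rw [not_eventually] at hn
  obtain ⟨U, hU, ⟨⟨x0, y0⟩, hz⟩, h'⟩ := exists_open_of_freq hp.not hn
  obtain ⟨A, B, hA, hB, hx0, hy0, hAB⟩ := isOpen_prod_iff.1 hU x0 y0 hz
  obtain ⟨x, hx, h1, h2⟩ := exists_of_ev_open hA ⟨x0, hx0⟩ (h.and (ku h'))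
  obtain ⟨y, hy, h3, h4⟩ := exists_of_ev_open hB ⟨y0, hy0⟩ (h1.and h2)
  exact h4 (hAB ⟨hx, hy⟩) h3

theorem ku_freq [BaireSpace X] [BaireSpace Y] {p : X × Y → Prop} (hp : Measurable p)
    (h : ∃ᶠ z in residual (X × Y), p z) : ∃ᶠ x in residual X, ∃ᶠ y in residual Y, p (x, y) := by
  intro hc
  apply h
  refine ku_conv hp.not (hc.mono fun x hx => ?_)
  exact not_frequently.1 hx

theorem measurable_freq_aux [BaireSpace Y] {S : Set (X × Y)} (hS : MeasurableSet S) :
    ∀ V : Set Y, IsOpen V →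
      Measurable fun x => ∃ᶠ y in residual Y, y ∈ V ∧ (x, y) ∈ S := by
  induction S, hS using MeasurableSet.induction_on_open with
  | isOpen U hU =>
    intro V hV
    have e : (fun x => ∃ᶠ y in residual Y, y ∈ V ∧ (x, y) ∈ U) =
        fun x => x ∈ Prod.fst '' (U ∩ univ ×ˢ V) := by
      funext x
      apply propext
      constructor
      · intro h
        obtain ⟨y, h1, h2⟩ := h.exists
        exact ⟨(x, y), ⟨h2, trivial, h1⟩, rfl⟩
      · rintro ⟨⟨x', y⟩, ⟨h2, -, h1⟩, rfl⟩
        have ho : IsOpen {y | y ∈ V ∧ (x', y) ∈ U} :=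
          hV.inter (hU.preimage (Continuous.prodMk_right x'))
        exact (freq_of_open ho ⟨y, h1, h2⟩ (p := fun _ => True) (by simp)).mono fun _ h => h.1
    rw [e]
    exact measurableSet_setOfPred.1 (isOpenMap_fst _ (hU.inter (isOpen_univ.prod hV))).measurableSet
  | compl S hS ih =>
    intro V hV
    have : Countable (countableBasis Y) := (countable_countableBasis Y).to_subtype
    have e : (fun x => ∃ᶠ y in residual Y, y ∈ V ∧ (x, y) ∈ Sᶜ) =
        fun x => ∃ W : countableBasis Y, W.1 ⊆ V ∧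
          ¬ ∃ᶠ y in residual Y, y ∈ W.1 ∧ (x, y) ∈ S := by
      funext x
      apply propext
      constructor
      · intro h
        have hm : Measurable fun y => y ∈ V ∧ (x, y) ∈ Sᶜ :=
          (measurableSet_setOfPred.1 hV.measurableSet).and
            (measurableSet_setOfPred.1 (measurable_prodMk_left hS.compl))
        obtain ⟨U, hU, hUn, hUe⟩ := exists_open_of_freq hm h
        obtain ⟨y, hy1, hy2⟩ := exists_of_ev_open hU hUn hUe
        obtain ⟨W, hW, hyW, hWs⟩ := (isBasis_countableBasis Y).exists_subset_of_mem_open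
          (show y ∈ U ∩ V from ⟨hy1, (hy2 hy1).1⟩) (hU.inter hV)
        refine ⟨⟨W, hW⟩, fun z hz => (hWs hz).2, ?_⟩
        rw [not_frequently]
        filter_upwards [hUe] with z hz hz'
        exact (hz (hWs hz'.1).1).2 hz'.2
      · rintro ⟨⟨W, hW⟩, hWV, h⟩
        rw [not_frequently] at h
        refine (freq_of_open (isOpen_of_mem_countableBasis hW) (nonempty_of_mem_countableBasis hW)
          (p := fun y => (x, y) ∈ Sᶜ) (h.mono fun y hy hyW hS => hy ⟨hyW, hS⟩)).mono
          fun y hy => ⟨hWV hy.1, hy.2⟩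
    rw [e]
    exact Measurable.exists fun W =>
      measurable_const.and (ih W.1 (isOpen_of_mem_countableBasis W.2)).not
  | iUnion f _ _ ih =>
    intro V hV
    have e : (fun x => ∃ᶠ y in residual Y, y ∈ V ∧ (x, y) ∈ ⋃ i, f i) =
        fun x => ∃ i, ∃ᶠ y in residual Y, y ∈ V ∧ (x, y) ∈ f i := by
      funext x
      apply propext
      constructor
      · intro h
        refine freq_exists (h.mono fun y hy => ?_)
        obtain ⟨i, hi⟩ := mem_iUnion.1 hy.2
        exact ⟨i, hy.1, hi⟩
      · rintro ⟨i, h⟩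
        exact h.mono fun y hy => ⟨hy.1, mem_iUnion.2 ⟨i, hy.2⟩⟩
    rw [e]
    exact Measurable.exists fun i => ih i V hV

/-- The category quantifier preserves Borel predicates. -/
theorem measurable_ev [BaireSpace Y] {p : X × Y → Prop} (hp : Measurable p) :
    Measurable fun x => ∀ᶠ y in residual Y, p (x, y) := by
  have h := (measurable_freq_aux (S := {z | ¬ p z}) (measurableSet_setOfPred.2 hp.not) univ
    isOpen_univ).not
  convert h using 2 with x
  simp

end Borel

section Cyl

variable {A : Type*}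

/-- Overwrite the first `N` coordinates. -/
def ov (N : ℕ) (x y : ℕ → A) : ℕ → A := fun n => if n < N then x n else y n

theorem ov_lt {N n : ℕ} (x y : ℕ → A) (h : n < N) : ov N x y n = x n := if_pos h

theorem ov_ge {N n : ℕ} (x y : ℕ → A) (h : N ≤ n) : ov N x y n = y n := if_neg (by omega)

theorem ov_eq_self {N : ℕ} {x y : ℕ → A} (h : ∀ n < N, y n = x n) : ov N x y = y := by
  funext n
  unfold ov
  split_ifs with hn
  · exact (h n hn).symm
  · rfl

variable [TopologicalSpace A]

theorem continuous_ov (N : ℕ) (x : ℕ → A) : Continuous (ov N x) := by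
  refine continuous_pi fun n => ?_
  unfold ov
  split_ifs
  · exact continuous_const
  · exact continuous_apply n

theorem exists_cyl_subset {U : Set (ℕ → A)} (hU : IsOpen U) {x : ℕ → A} (hx : x ∈ U) :
    ∃ N, ∀ y : ℕ → A, (∀ n < N, y n = x n) → y ∈ U := by
  obtain ⟨I, u, h1, h2⟩ := isOpen_pi_iff.1 hU x hx
  refine ⟨I.sup id + 1, fun y hy => h2 fun i hi => ?_⟩
  rw [hy i (Nat.lt_succ_of_le (Finset.le_sup (f := id) hi))]
  exact (h1 i hi).2

theorem isOpen_cyl [DiscreteTopology A] (N : ℕ) (x : ℕ → A) :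
    IsOpen {y : ℕ → A | ∀ n < N, y n = x n} := by
  have e : {y : ℕ → A | ∀ n < N, y n = x n} = ⋂ n ∈ Finset.range N, {y | y n = x n} := by
    ext y; simp
  rw [e]
  exact isOpen_biInter_finset fun n _ =>
    (isOpen_discrete {x n}).preimage (continuous_apply n : Continuous fun y : ℕ → A => y n)

theorem isOpenMap_of_cyl [DiscreteTopology A] {Z : Type*} [TopologicalSpace Z] {f : Z → ℕ → A}
    (h : ∀ z, ∀ U ∈ 𝓝 z, ∃ N, ∀ y : ℕ → A, (∀ n < N, y n = f z n) → ∃ z' ∈ U, f z' = y) :
    IsOpenMap f := by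
  intro U hU
  rw [isOpen_iff_mem_nhds]
  rintro _ ⟨z, hz, rfl⟩
  obtain ⟨N, hN⟩ := h z U (hU.mem_nhds hz)
  exact mem_of_superset ((isOpen_cyl N (f z)).mem_nhds fun _ _ => rfl) fun y hy => hN y hy

theorem isOpenMap_ov [DiscreteTopology A] (N : ℕ) (x : ℕ → A) : IsOpenMap (ov N x) := by
  refine isOpenMap_of_cyl fun z U hU => ?_
  obtain ⟨V, hVU, hV, hz⟩ := mem_nhds_iff.1 hU
  obtain ⟨M, hM⟩ := exists_cyl_subset hV hz
  refine ⟨max M N, fun y hy => ⟨ov N z y, hVU (hM _ fun n hn => ?_), ?_⟩⟩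
  · by_cases h : n < N
    · exact ov_lt _ _ h
    · rw [ov_ge _ _ (by omega), hy n (by omega), ov_ge _ _ (by omega)]
  · funext n
    by_cases h : n < N
    · rw [ov_lt _ _ h, hy n (by omega), ov_lt _ _ h]
    · rw [ov_ge _ _ (by omega), ov_ge _ _ (by omega)]

end Cyl

end Crest.Agent.R292
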