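import Crest.Agent.R292.Comp
import Crest.Agent.R292.Baire

/-! Row 292: operations on reals, uniform reductions, measurability. -/

set_option autoImplicit false

open Crest.Agent.Lib.Computability

namespace Crest.Agent.R292

/-- Join of two reals. -/
def jn (x y : 𝒞) (n : ℕ) : Bool := bif eqB (n % 2) 0 then x (n / 2) else y (n / 2)

/-- Bitwise sum. -/
def xr (x y : 𝒞) (n : ℕ) : Bool := xor (x n) (y n)

/-- Shift (prepend `false`). -/
def sh (x : 𝒞) (n : ℕ) : Bool := bif eqB n 0 then false else x (n - 1)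

/-- Infinite join. -/
def cols (f : ℕ → 𝒞) (n : ℕ) : Bool := f n.unpair.1 n.unpair.2

/-- Column of a real. -/
def col (x : 𝒞) (i j : ℕ) : Bool := x (Nat.pair i j)

@[simp] theorem jn_even (x y : 𝒞) (n : ℕ) : jn x y (2 * n) = x n := by
  simp [jn, eqB]

@[simp] theorem jn_odd (x y : 𝒞) (n : ℕ) : jn x y (2 * n + 1) = y n := by
  have h1 : (2 * n + 1) % 2 = 1 := by omega
  have h2 : (2 * n + 1) / 2 = n := by omega
  simp [jn, eqB, h1, h2]

theorem jn_congr {x y x' y' : 𝒞} {n : ℕ} (hx : x (n / 2) = x' (n / 2))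
    (hy : y (n / 2) = y' (n / 2)) : jn x y n = jn x' y' n := by
  simp only [jn, hx, hy]

@[simp] theorem sh_zero (x : 𝒞) : sh x 0 = false := by simp [sh, eqB]

@[simp] theorem sh_succ (x : 𝒞) (n : ℕ) : sh x (n + 1) = x n := by simp [sh, eqB]

@[simp] theorem xr_xr (x y : 𝒞) : xr (xr x y) y = x := by
  funext n; simp [xr]

theorem xr_comm (x y : 𝒞) : xr x y = xr y x := by
  funext n; simp [xr, Bool.xor_comm]

@[simp] theorem xr_xr' (x y : 𝒞) : xr (xr x y) x = y := by
  rw [xr_comm x y, xr_xr]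

@[simp] theorem xr_xr'' (x y : 𝒞) : xr x (xr x y) = y := by
  rw [xr_comm, xr_xr']

@[simp] theorem xr_xr''' (x y : 𝒞) : xr x (xr y x) = y := by
  rw [xr_comm, xr_xr]

@[simp] theorem col_cols (f : ℕ → 𝒞) (i : ℕ) : col (cols f) i = f i := by
  funext j; simp [col, cols]

@[simp] theorem cols_col (x : 𝒞) : cols (col x) = x := by
  funext j; simp [col, cols]

section TR
variable {x y z : 𝒞}

theorem tr_trans (h1 : x ≤ₜ y) (h2 : y ≤ₜ z) : x ≤ₜ z := h1.trans h2

theorem jn_le (hx : x ≤ₜ z) (hy : y ≤ₜ z) : jn x y ≤ₜ z := by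
  unfold jn; fun_prop

theorem le_jn_left (x y : 𝒞) : x ≤ₜ jn x y := by
  have h := tr_refl (jn x y)
  have h' : CI (orc (jn x y)) fun n => jn x y (2 * n) := h.comp (by fun_prop)
  exact h'.of_eq (jn_even x y)

theorem le_jn_right (x y : 𝒞) : y ≤ₜ jn x y := by
  have h := tr_refl (jn x y)
  have h' : CI (orc (jn x y)) fun n => jn x y (2 * n + 1) := h.comp (by fun_prop)
  exact h'.of_eq (jn_odd x y)

theorem jn_mono {x' y' : 𝒞} (hx : x ≤ₜ x') (hy : y ≤ₜ y') : jn x y ≤ₜ jn x' y' :=
  jn_le (tr_trans hx (le_jn_left _ _)) (tr_trans hy (le_jn_right _ _))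

theorem xr_le (hx : x ≤ₜ z) (hy : y ≤ₜ z) : xr x y ≤ₜ z := by
  unfold xr; fun_prop

theorem sh_le (hx : x ≤ₜ z) : sh x ≤ₜ z := by
  unfold sh; fun_prop

theorem le_sh (x : 𝒞) : x ≤ₜ sh x := by
  have h := tr_refl (sh x)
  have h' : CI (orc (sh x)) fun n => sh x (n + 1) := h.comp (by fun_prop)
  exact h'.of_eq (sh_succ x)

theorem ov_le (N : ℕ) (x y : 𝒞) : ov N x y ≤ₜ y := by
  have h := tr_refl y
  have h' : CI (orc y) fun n => bif ltN n N then ext (pre x N) n else y n := by fun_prop
  refine h'.of_eq fun n => ?_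
  by_cases hn : n < N
  · rw [ltN_iff.2 hn, cond_true, ext_pre x hn, ov_lt _ _ hn]
  · have : ltN n N = false := by rw [← Bool.not_eq_true]; simpa using hn
    rw [this, cond_false, ov_ge _ _ (by omega)]

theorem le_of_eventually_eq {N : ℕ} (h : ∀ n, N ≤ n → x n = y n) : x ≤ₜ y := by
  have e : x = ov N x y := by
    funext n
    by_cases hn : n < N
    · rw [ov_lt _ _ hn]
    · rw [ov_ge _ _ (by omega), h n (by omega)]
  rw [e]
  exact ov_le N x y

theorem le_ov (N : ℕ) (x y : 𝒞) : y ≤ₜ ov N x y :=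
  le_of_eventually_eq (N := N) fun _ hn => (ov_ge _ _ hn).symm

theorem col_le (x : 𝒞) (i : ℕ) : col x i ≤ₜ x := by
  have h := tr_refl x
  unfold col; fun_prop

theorem le_cols (f : ℕ → 𝒞) (i : ℕ) : f i ≤ₜ cols f := by
  simpa using col_le (cols f) i

theorem zero_le (x : 𝒞) : (fun _ => false) ≤ₜ x := by fun_prop

end TR

section Cont

@[fun_prop] theorem continuous_jn {Z : Type*} [TopologicalSpace Z] {f g : Z → 𝒞} (hf : Continuous f)
    (hg : Continuous g) : Continuous fun z => jn (f z) (g z) := by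
  refine continuous_pi fun n => ?_
  unfold jn
  cases eqB (n % 2) 0
  · exact (continuous_apply _).comp hg
  · exact (continuous_apply _).comp hf

@[fun_prop] theorem continuous_xr {Z : Type*} [TopologicalSpace Z] {f g : Z → 𝒞} (hf : Continuous f)
    (hg : Continuous g) : Continuous fun z => xr (f z) (g z) := by
  refine continuous_pi fun n => ?_
  exact (continuous_of_discreteTopology (f := fun p : Bool × Bool => xor p.1 p.2)).comp
    (((continuous_apply n).comp hf).prodMk ((continuous_apply n).comp hg))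

@[fun_prop] theorem continuous_sh {Z : Type*} [TopologicalSpace Z] {f : Z → 𝒞}
    (hf : Continuous f) : Continuous fun z => sh (f z) := by
  refine continuous_pi fun n => ?_
  unfold sh
  cases eqB n 0
  · exact (continuous_apply _).comp hf
  · exact continuous_const

@[fun_prop] theorem continuous_cols {Z : Type*} [TopologicalSpace Z] {f : Z → ℕ → 𝒞}
    (hf : ∀ i, Continuous fun z => f z i) : Continuous fun z => cols (f z) :=
  continuous_pi fun _ => (continuous_apply _).comp (hf _)

@[fun_prop] theorem continuous_col {Z : Type*} [TopologicalSpace Z] {f : Z → 𝒞}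
    (hf : Continuous f) (i : ℕ) : Continuous fun z => col (f z) i :=
  continuous_pi fun _ => (continuous_apply _).comp hf

theorem continuous_pre (l : ℕ) :
    @Continuous _ _ _ (⊥ : TopologicalSpace (List Bool)) fun x : 𝒞 => pre x l := by
  let _ : TopologicalSpace (List Bool) := ⊥
  have : DiscreteTopology (List Bool) := ⟨rfl⟩
  rw [continuous_discrete_rng]
  intro σ
  rw [isOpen_iff_mem_nhds]
  intro x hx
  refine Filter.mem_of_superset ((isOpen_cyl l x).mem_nhds fun _ _ => rfl) fun y hy => ?_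
  exact (pre_congr hy).trans hx

theorem isClosed_pfx {Z : Type*} [TopologicalSpace Z] {f g : Z → 𝒞} (hf : Continuous f)
    (hg : Continuous g) (Γ : List Bool → List Bool) :
    IsClosed {z | ∀ l, Pfx (Γ (pre (f z) l)) (g z)} := by
  let _ : TopologicalSpace (List Bool) := ⊥
  have : DiscreteTopology (List Bool) := ⟨rfl⟩
  simp only [Set.ofPred_forall, Pfx]
  refine isClosed_iInter fun l => isClosed_iInter fun i => ?_
  have h1 : Continuous fun z => (pre (f z) l, g z i) :=
    ((continuous_pre l).comp hf).prodMk ((continuous_apply i).comp hg)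
  have h2 := (isClosed_discrete
    {p : List Bool × Bool | i < (Γ p.1).length → ext (Γ p.1) i = p.2}).preimage h1
  convert h2 using 1
  ext z
  simp

end Cont

section Meas

variable {Z : Type*} [MeasurableSpace Z]

@[fun_prop] theorem measurable_jn {f g : Z → 𝒞} (hf : Measurable f) (hg : Measurable g) :
    Measurable fun z => jn (f z) (g z) :=
  (continuous_jn continuous_fst continuous_snd).measurable.comp (hf.prodMk hg)

@[fun_prop] theorem measurable_xr {f g : Z → 𝒞} (hf : Measurable f) (hg : Measurable g) :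
    Measurable fun z => xr (f z) (g z) :=
  (continuous_xr continuous_fst continuous_snd).measurable.comp (hf.prodMk hg)

@[fun_prop] theorem measurable_sh {f : Z → 𝒞} (hf : Measurable f) :
    Measurable fun z => sh (f z) :=
  (continuous_sh continuous_id).measurable.comp hf

@[fun_prop] theorem measurable_cols {f : Z → ℕ → 𝒞} (hf : ∀ i, Measurable fun z => f z i) :
    Measurable fun z => cols (f z) :=
  measurable_pi_lambda _ fun _ => (measurable_pi_apply _).comp (hf _)

theorem measurable_pre_prop {f : Z → 𝒞} (hf : Measurable f) (l : ℕ) (q : List Bool → Prop) :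
    Measurable fun z => q (pre (f z) l) := by
  let _ : TopologicalSpace (List Bool) := ⊥
  have : DiscreteTopology (List Bool) := ⟨rfl⟩
  have h := ((isClosed_discrete {σ | q σ}).preimage (continuous_pre l)).measurableSet
  exact measurableSet_setOfPred.1 (hf h)

theorem measurable_comp {f g : Z → 𝒞} (hf : Measurable f) (hg : Measurable g)
    (Γ : List Bool → List Bool) : Measurable fun z => Comp Γ (f z) (g z) := by
  refine Measurable.and ?_ (Measurable.forall fun n => Measurable.exists fun l0 =>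
    Measurable.forall fun l => measurable_const.imp
      (measurable_pre_prop hf l fun σ => n ≤ (Γ σ).length))
  have h := (isClosed_pfx (Z := 𝒞 × 𝒞) continuous_fst continuous_snd Γ).measurableSet
  exact measurableSet_setOfPred.1 ((hf.prodMk hg) h)

theorem measurable_tr {f g : Z → 𝒞} (hf : Measurable f) (hg : Measurable g) :
    Measurable fun z => f z ≤ₜ g z := by
  simp only [tr_iff]
  exact Measurable.exists fun Γ => measurable_comp hg hf Γ.1

theorem measurable_eq {f g : Z → 𝒞} (hf : Measurable f) (hg : Measurable g) :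
    Measurable fun z => f z = g z :=
  measurableSet_setOfPred.1 (measurableSet_eq_fun hf hg)

theorem measurable_decide {p : Z → ℕ → Prop} (hp : ∀ n, Measurable fun z => p z n) :
    Measurable fun z n => @decide (p z n) (Classical.propDecidable _) :=
  measurable_pi_lambda _ fun n =>
    (measurable_from_top (f := fun q : Prop => @decide q (Classical.propDecidable _))).comp (hp n)

end Meas

open Classical in
/-- The candidate output of a functional. -/
noncomputable def Phi0 (Γ : PR) (y : 𝒞) (n : ℕ) : Bool :=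
  decide (∃ l, n < (Γ.1 (pre y l)).length ∧ ext (Γ.1 (pre y l)) n = true)

open Classical in
/-- The output of a functional, or zero. -/
noncomputable def Phi (Γ : PR) (y : 𝒞) : 𝒞 :=
  if Comp Γ.1 y (Phi0 Γ y) then Phi0 Γ y else fun _ => false

theorem Comp.phi0 {Γ : PR} {y x : 𝒞} (h : Comp Γ.1 y x) : Phi0 Γ y = x := by
  funext n
  rw [Bool.eq_iff_iff]
  simp only [Phi0, decide_eq_true_iff]
  constructor
  · rintro ⟨l, h1, h2⟩
    rw [← h.1 l n h1, h2]
  · intro hx
    obtain ⟨l, hl⟩ := h.2 (n + 1)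
    have := hl l le_rfl
    exact ⟨l, by omega, by rw [h.1 l n (by omega), hx]⟩

theorem phi_le (Γ : PR) (y : 𝒞) : Phi Γ y ≤ₜ y := by
  unfold Phi
  split_ifs with h
  · exact h.tr Γ.2
  · exact zero_le y

theorem exists_phi {x y : 𝒞} (h : x ≤ₜ y) : ∃ Γ, Phi Γ y = x := by
  obtain ⟨Γ, hΓ⟩ := tr_iff.1 h
  refine ⟨Γ, ?_⟩
  unfold Phi
  rw [hΓ.phi0, if_pos hΓ]

theorem measurable_phi (Γ : PR) : Measurable (Phi Γ) := by
  have h0 : Measurable (Phi0 Γ) :=
    measurable_decide fun n => Measurable.exists fun l =>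
      measurable_pre_prop measurable_id l fun σ => n < (Γ.1 σ).length ∧ ext (Γ.1 σ) n = true
  exact Measurable.ite (measurableSet_setOfPred.2 (measurable_comp measurable_id h0 Γ.1)) h0
    measurable_const

@[fun_prop] theorem measurable_phi' {Z : Type*} [MeasurableSpace Z] (Γ : PR) {f : Z → 𝒞}
    (hf : Measurable f) : Measurable fun z => Phi Γ (f z) := (measurable_phi Γ).comp hf

/-- Uniform reducibility of families. -/
def UR {ι : Type*} (X Y : ι → 𝒞) : Prop := ∃ Γ, Primrec Γ ∧ ∀ i, Comp Γ (Y i) (X i)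

section UR
variable {ι : Type*} {X Y Z : ι → 𝒞}

theorem Comp.comp {Γ Δ : List Bool → List Bool} {x y z : 𝒞} (h1 : Comp Γ y x) (h2 : Comp Δ z y) :
    Comp (fun σ => Γ (Δ σ)) z x := by
  refine ⟨fun l => ?_, fun n => ?_⟩
  · beta_reduce
    rw [(h2.1 l).eq_pre]
    exact h1.1 _
  · obtain ⟨l1, hl1⟩ := h1.2 n
    obtain ⟨l2, hl2⟩ := h2.2 l1
    refine ⟨l2, fun l hl => ?_⟩
    beta_reduce
    rw [(h2.1 l).eq_pre]
    exact hl1 _ (hl2 l hl)

theorem comp_id (x : 𝒞) : Comp (fun σ => σ) x x :=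
  ⟨fun _ => pfx_pre fun _ _ => rfl, fun n => ⟨n, fun l hl => by simpa using hl⟩⟩

theorem UR.refl (X : ι → 𝒞) : UR X X := ⟨fun σ => σ, Primrec.id, fun _ => comp_id _⟩

theorem UR.trans (h1 : UR X Y) (h2 : UR Y Z) : UR X Z := by
  obtain ⟨Γ, p1, h1⟩ := h1
  obtain ⟨Δ, p2, h2⟩ := h2
  exact ⟨fun σ => Γ (Δ σ), p1.comp p2, fun i => (h1 i).comp (h2 i)⟩

theorem UR.reindex {κ : Type*} (h : UR X Y) (f : κ → ι) :
    UR (fun k => X (f k)) fun k => Y (f k) := by
  obtain ⟨Γ, p1, h1⟩ := h
  exact ⟨Γ, p1, fun k => h1 (f k)⟩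

theorem UR.jn (h1 : UR X Z) (h2 : UR Y Z) : UR (fun i => jn (X i) (Y i)) Z := by
  obtain ⟨Γ, p1, h1⟩ := h1
  obtain ⟨Δ, p2, h2⟩ := h2
  refine ⟨fun σ => pre (R292.jn (ext (Γ σ)) (ext (Δ σ))) (min (Γ σ).length (Δ σ).length),
    by unfold R292.jn; fun_prop, fun i => ⟨fun l => pfx_pre fun j hj => ?_, fun n => ?_⟩⟩
  · exact jn_congr ((h1 i).1 l _ (by omega)) ((h2 i).1 l _ (by omega))
  · obtain ⟨l1, hl1⟩ := (h1 i).2 n
    obtain ⟨l2, hl2⟩ := (h2 i).2 n
    refine ⟨max l1 l2, fun l hl => ?_⟩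
    have := hl1 l (by omega)
    have := hl2 l (by omega)
    simp only [length_pre]
    omega

theorem UR.left (X Y : ι → 𝒞) : UR X fun i => R292.jn (X i) (Y i) := by
  refine ⟨fun σ => pre (fun j => ext σ (2 * j)) (σ.length / 2), by fun_prop,
    fun i => ⟨fun l => pfx_pre fun j hj => ?_, fun n => ⟨2 * n, fun l hl => ?_⟩⟩⟩
  · rw [length_pre] at hj
    rw [ext_pre _ (by omega)]
    exact jn_even _ _ _
  · simp only [length_pre]; omega

theorem UR.right (X Y : ι → 𝒞) : UR Y fun i => R292.jn (X i) (Y i) := by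
  refine ⟨fun σ => pre (fun j => ext σ (2 * j + 1)) (σ.length / 2), by fun_prop,
    fun i => ⟨fun l => pfx_pre fun j hj => ?_, fun n => ⟨2 * n, fun l hl => ?_⟩⟩⟩
  · rw [length_pre] at hj
    rw [ext_pre _ (by omega)]
    exact jn_odd _ _ _
  · simp only [length_pre]; omega

theorem UR.cases (μ : ℕ)
    (h : ∀ b, UR (fun i : {i // Y i μ = b} => X i.1) fun i => Y i.1) : UR X Y := by
  obtain ⟨Γ, p1, h1⟩ := h true
  obtain ⟨Δ, p2, h2⟩ := h false
  refine ⟨fun σ => bif ltN μ σ.length then (bif ext σ μ then Γ σ else Δ σ) else [], by fun_prop,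
    fun i => ?_⟩
  have key : ∃ Θ, Comp Θ (Y i) (X i) ∧ ∀ l, μ < l →
      (bif ext (pre (Y i) l) μ then Γ (pre (Y i) l) else Δ (pre (Y i) l)) = Θ (pre (Y i) l) := by
    cases e : Y i μ
    · exact ⟨Δ, h2 ⟨i, e⟩, fun l hl => by rw [ext_pre _ hl, e]; rfl⟩
    · exact ⟨Γ, h1 ⟨i, e⟩, fun l hl => by rw [ext_pre _ hl, e]; rfl⟩
  obtain ⟨Θ, hΘ, e⟩ := key
  refine ⟨fun l => ?_, fun n => ?_⟩
  · by_cases hl : μ < l
    · have : ltN μ (pre (Y i) l).length = true := by simpa using hl
      simp only [this, cond_true, e l hl]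
      exact hΘ.1 l
    · have : ltN μ (pre (Y i) l).length = false := by
        rw [← Bool.not_eq_true]; simpa using hl
      simp only [this, cond_false]
      exact pfx_nil _
  · obtain ⟨l0, h0⟩ := hΘ.2 n
    refine ⟨max l0 (μ + 1), fun l hl => ?_⟩
    have : ltN μ (pre (Y i) l).length = true := by simp; omega
    simp only [this, cond_true, e l (by omega)]
    exact h0 l (by omega)

theorem UR.iterate {W : ℕ → 𝒞} (h : UR (fun n => W (n + 1)) W) (μ : ℕ) :
    (fun n => W n μ) ≤ₜ W 0 := by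
  obtain ⟨Γ, p1, h1⟩ := h
  have key : ∀ q, Comp (fun σ => iter σ (fun _ s => Γ s) q) (W 0) (W q) := by
    intro q
    induction q with
    | zero => exact comp_id _
    | succ q ih => exact (h1 q).comp ih
  have h0 := tr_refl (W 0)
  refine tr_of_search (β := ℕ × ℕ) (ψ := fun p =>
    bif allB p.2 (fun q => ltN μ (iter (pre (W 0) p.1) (fun _ s => Γ s) q).length) then
      pre (fun q => ext (iter (pre (W 0) p.1) (fun _ s => Γ s) q) μ) p.2 else []) ?_
    (fun p => ?_) fun n => ?_
  · have h2 : Primrec fun p : List Bool × ℕ =>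
        bif allB p.2 (fun q => ltN μ (iter p.1 (fun _ s => Γ s) q).length) then
          pre (fun q => ext (iter p.1 (fun _ s => Γ s) q) μ) p.2 else [] := by fun_prop
    have h3 : CI (orc (W 0)) fun p : ℕ × ℕ => (pre (W 0) p.1, p.2) := by fun_prop
    exact ((CI.of_primrec h2).comp h3).of_eq fun _ => rfl
  · cases e : allB p.2 (fun q => ltN μ (iter (pre (W 0) p.1) (fun _ s => Γ s) q).length)
    · exact pfx_nil _
    · refine pfx_pre fun q hq => ?_
      exact (key q).1 p.1 μ (by simpa using allB_iff.1 e q hq)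
  · obtain ⟨l0, hl0⟩ := exists_forall_lt
      (P := fun q l => μ < (iter (pre (W 0) l) (fun _ s => Γ s) q).length) (n + 1)
      fun q _ => (key q).2 (μ + 1)
    refine ⟨(l0, n + 1), ?_⟩
    have : allB (n + 1) (fun q => ltN μ (iter (pre (W 0) l0) (fun _ s => Γ s) q).length) = true :=
      allB_iff.2 fun q hq => by simpa using hl0 l0 le_rfl q hq
    simp [this]

end UR

end Crest.Agent.R292
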