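import Crest.Agent.Lib.Computability.FunProp

/-! Row 292: closure properties of oracle computability. -/

set_option autoImplicit false

open Encodable Part Crest.Agent.Lib.Computability

namespace Crest.Agent.R292

section RI

variable {O : Set (ℕ →. ℕ)}

theorem nri_some : Nat.RecursiveIn O Part.some := Nat.Partrec.some.recursiveIn

theorem nri_prec' {f g h : ℕ →. ℕ} (hf : Nat.RecursiveIn O f) (hg : Nat.RecursiveIn O g)
    (hh : Nat.RecursiveIn O h) :
    Nat.RecursiveIn O fun a => (f a).bind fun n => n.rec (g a)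
      fun y IH => do {let i ← IH; h (Nat.pair a (Nat.pair y i))} :=
  ((Nat.RecursiveIn.prec hg hh).comp (Nat.RecursiveIn.pair nri_some hf)).of_eq fun a =>
    Part.ext fun s => by simp [Seq.seq]

variable {α β γ σ : Type*} [Primcodable α] [Primcodable β] [Primcodable γ] [Primcodable σ]

set_option backward.isDefEq.respectTransparency false in
theorem ri_bind {f : α →. β} {g : α → β →. σ} (hf : RecursiveIn O f) (hg : RecursiveIn₂ O g) :
    RecursiveIn O fun a => (f a).bind (g a) :=
  Nat.RecursiveIn.of_eq (Nat.RecursiveIn.comp hg (Nat.RecursiveIn.pair nri_some hf)) fun n => by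
    rcases e : decode (α := α) n <;> simp [Seq.seq, e, encodek]

theorem ri_map {f : α →. β} {g : α → β → σ} (hf : RecursiveIn O f) (hg : ComputableIn₂ O g) :
    RecursiveIn O fun a => (f a).map (g a) := by
  simpa [bind_some_eq_map] using ri_bind (g := fun a x => Part.some (g a x)) hf hg

theorem ri_nat_rec {f : α → ℕ} {g : α →. σ} {h : α → ℕ × σ →. σ} (hf : ComputableIn O f)
    (hg : RecursiveIn O g) (hh : RecursiveIn₂ O h) :
    RecursiveIn O fun a => (f a).rec (g a) fun y IH => IH.bind fun i => h a (y, i) :=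
  Nat.RecursiveIn.of_eq (nri_prec' hf hg hh) fun n => by
    rcases e : decode (α := α) n with - | a
    · simp
    · simp only [coe_some, bind_some]
      induction f a <;> simp_all

theorem ri_comp {f : β →. σ} {g : α → β} (hf : RecursiveIn O f) (hg : ComputableIn O g) :
    RecursiveIn O fun a => f (g a) :=
  Nat.RecursiveIn.of_eq (Nat.RecursiveIn.comp hf hg) fun n => by
    simp only [map_some, bind_eq_bind]
    rcases e : decode (α := α) n with - | a <;> simp [encodek]

theorem ci_comp {f : β → σ} {g : α → β} (hf : ComputableIn O f) (hg : ComputableIn O g) :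
    ComputableIn O fun a => f (g a) :=
  ri_comp (f := fun b => Part.some (f b)) hf hg

set_option backward.isDefEq.respectTransparency false in
theorem ci_pair {f : α → β} {g : α → γ} (hf : ComputableIn O f) (hg : ComputableIn O g) :
    ComputableIn O fun a => (f a, g a) :=
  Nat.RecursiveIn.of_eq (Nat.RecursiveIn.pair hf hg) fun n => by
    cases decode (α := α) n <;> simp [Seq.seq]

set_option backward.isDefEq.respectTransparency false in
theorem ri_rfind {p : α → ℕ →. Bool} (hp : RecursiveIn₂ O p) :
    RecursiveIn O fun a => Nat.rfind (p a) :=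
  Nat.RecursiveIn.of_eq (Nat.RecursiveIn.rfind <| ri_map hp
    (((Primrec.dom_bool fun b => cond b 0 1).comp Primrec.snd).to₂.computableIn₂))
    fun n => by
    rcases e : decode (α := α) n <;> simp [e, Nat.rfind_zero_none, map_map, map_id']

theorem ci_nat_rec {f : α → ℕ} {g : α → σ} {h : α → ℕ × σ → σ} (hf : ComputableIn O f)
    (hg : ComputableIn O g) (hh : ComputableIn₂ O h) :
    ComputableIn O fun a => Nat.rec (motive := fun _ => σ) (g a) (fun y IH => h a (y, IH)) (f a) :=
  RecursiveIn.of_eq (ri_nat_rec (g := fun a => Part.some (g a))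
    (h := fun a p => Part.some (h a p)) hf hg hh) fun a => by
    beta_reduce
    induction f a <;> simp [*]

end RI

/-- Cantor space. -/
scoped notation "𝒞" => ℕ → Bool

/-- The characteristic function as an oracle. -/
def chi (z : 𝒞) : ℕ →. ℕ := fun n => Part.some (cond (z n) 1 0)

/-- The oracle set of a real. -/
def orc (z : 𝒞) : Set (ℕ →. ℕ) := {chi z}

/-- Computable with oracles `O`. -/
@[fun_prop] def CI {α β : Type*} [Primcodable α] [Primcodable β] (O : Set (ℕ →. ℕ)) (f : α → β) :
    Prop :=
  ComputableIn O f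

/-- Turing reducibility of reals. -/
scoped notation:50 x:51 " ≤ₜ " y:51 => CI (α := ℕ) (β := Bool) (orc y) x

variable {α β γ σ : Type*} [Primcodable α] [Primcodable β] [Primcodable γ] [Primcodable σ]
  {O : Set (ℕ →. ℕ)}

theorem CI.of_eq {f g : α → β} (hf : CI O f) (h : ∀ a, f a = g a) : CI O g :=
  (funext h : f = g) ▸ hf

@[fun_prop] theorem CI.id : CI O (fun x : α => x) := ComputableIn.id
@[fun_prop] theorem CI.const (c : β) : CI O (fun _ : α => c) := ComputableIn.const c
@[fun_prop] theorem CI.comp {f : β → γ} {g : α → β} (hf : CI O f) (hg : CI O g) :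
    CI O (fun x => f (g x)) := ci_comp hf hg
@[fun_prop] theorem CI.pair {f : α → β} {g : α → γ} (hf : CI O f) (hg : CI O g) :
    CI O (fun x => (f x, g x)) := ci_pair hf hg
@[fun_prop] theorem CI.fst {f : α → β × γ} (hf : CI O f) : CI O (fun x => (f x).1) :=
  ci_comp ComputableIn.fst hf
@[fun_prop] theorem CI.snd {f : α → β × γ} (hf : CI O f) : CI O (fun x => (f x).2) :=
  ci_comp ComputableIn.snd hf
@[fun_prop] theorem CI.of_primrec {f : α → β} (hf : Primrec f) : CI O f := hf.computableIn

theorem tr_refl (z : 𝒞) : z ≤ₜ z := by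
  have h1 : RecursiveIn {chi z} (chi z) := RecursiveIn.oracle _ rfl
  have h2 : CI (orc z) (fun n => cond (z n) 1 0) := h1
  have h3 : Primrec fun m : ℕ => eqB m 1 := by fun_prop
  refine CI.of_eq (CI.comp (CI.of_primrec h3) h2) fun n => ?_
  cases z n <;> rfl

@[fun_prop] theorem CI.iterate {n : α → ℕ} {b : α → σ} {s : α → ℕ → σ → σ} (hn : CI O n)
    (hb : CI O b) (hs : CI O (fun p : α × (ℕ × σ) => s p.1 p.2.1 p.2.2)) :
    CI O (fun x => iter (b x) (s x) (n x)) := by
  refine CI.of_eq (ci_nat_rec (h := fun a p => s a p.1 p.2) hn hb hs) fun x => ?_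
  induction n x with
  | zero => rfl
  | succ k ih => simp only [iter_succ, ← ih]

@[fun_prop] theorem CI.cond {c : α → Bool} {f g : α → σ} (hc : CI O c) (hf : CI O f)
    (hg : CI O g) : CI O (fun x => cond (c x) (f x) (g x)) := by
  have h : Primrec fun p : Bool × σ × σ => _root_.cond p.1 p.2.1 p.2.2 := by fun_prop
  exact CI.comp (CI.of_primrec h) (hc.pair (hf.pair hg))

theorem CI.map_range {n : α → ℕ} {g : α → ℕ → σ} (hn : CI O n)
    (hg : CI O (fun p : α × ℕ => g p.1 p.2)) : CI O (fun x => (List.range (n x)).map (g x)) := by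
  have h : CI O (fun x => iter ([] : List σ) (fun k l => l ++ [g x k]) (n x)) := by fun_prop
  refine h.of_eq fun x => ?_
  induction n x with
  | zero => rfl
  | succ k ih => simp [List.range_succ, ih]

theorem CI.find {p : α → ℕ → Bool} (hp : CI O (fun q : α × ℕ => p q.1 q.2))
    (h : ∀ a, ∃ n, p a n = true) : CI O (fun a => Nat.find (h a)) := by
  refine RecursiveIn.of_eq_tot (ri_rfind (p := fun a n => Part.some (p a n)) hp) fun a => ?_
  rw [Nat.mem_rfind]
  refine ⟨by simpa using Nat.find_spec (h a), fun {m} hm => ?_⟩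
  simpa using Nat.find_min (h a) hm

theorem CI.trans {y z : 𝒞} {f : α → β} (hf : CI (orc y) f) (hy : y ≤ₜ z) : CI (orc z) f := by
  refine RecursiveIn.subst hf fun g hg => ?_
  rw [Set.mem_singleton_iff.1 hg]
  have h : CI (orc z) (fun n => _root_.cond (y n) 1 0) := by fun_prop
  exact h

theorem tr_iff_reducible {x y : 𝒞} : x ≤ₜ y ↔ TuringReducible (chi x) (chi y) := by
  constructor
  · intro h
    have h' : CI (orc y) (fun n => cond (x n) 1 0) := by fun_prop
    exact h'
  · intro h
    have h2 : CI (orc y) (fun n => cond (x n) 1 0) := h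
    have h3 : CI (orc y) fun n => eqB (cond (x n) 1 0) 1 :=
      CI.comp (f := fun m => eqB m 1) (by fun_prop) h2
    refine h3.of_eq fun n => ?_
    cases x n <;> rfl

end Crest.Agent.R292
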