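import Crest.Agent.R292.CI

/-! Row 292: Turing functionals as primitive recursive maps on finite strings. -/

set_option autoImplicit false

open Encodable Crest.Agent.Lib.Computability

namespace Crest.Agent.R292

section FP
variable {α β σ : Type*} [Primcodable α] [Primcodable β] [Primcodable σ]

@[fun_prop] theorem fp_some {f : α → β} (hf : Primrec f) : Primrec (fun x => some (f x)) :=
  Primrec.option_some.comp hf
@[fun_prop] theorem fp_obind {f : α → Option β} {g : α → β → Option σ} (hf : Primrec f)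
    (hg : Primrec (fun p : α × β => g p.1 p.2)) : Primrec (fun x => (f x).bind (g x)) :=
  Primrec.option_bind hf hg
@[fun_prop] theorem fp_omap {f : α → Option β} {g : α → β → σ} (hf : Primrec f)
    (hg : Primrec (fun p : α × β => g p.1 p.2)) : Primrec (fun x => (f x).map (g x)) :=
  Primrec.option_map hf hg
@[fun_prop] theorem fp_isSome {f : α → Option β} (hf : Primrec f) :
    Primrec (fun x => (f x).isSome) := Primrec.option_isSome.comp hf
@[fun_prop] theorem fp_ogetD {f : α → Option β} {g : α → β} (hf : Primrec f) (hg : Primrec g) :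
    Primrec (fun x => (f x).getD (g x)) := Primrec.option_getD.comp hf hg
@[fun_prop] theorem fp_xor {f g : α → Bool} (hf : Primrec f) (hg : Primrec g) :
    Primrec (fun x => xor (f x) (g x)) := (Primrec.dom_bool₂ xor).comp hf hg
@[fun_prop] theorem fp_decode {f : α → ℕ} (hf : Primrec f) :
    Primrec (fun x => decode (α := β) (f x)) := Primrec.decode.comp hf
@[fun_prop] theorem fp_encode {f : α → β} (hf : Primrec f) :
    Primrec (fun x => encode (f x)) := Primrec.encode.comp hf

/-- Bounded universal quantifier. -/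
def allB (N : ℕ) (q : ℕ → Bool) : Bool := iter true (fun k b => b && q k) N

@[simp] theorem allB_iff {N : ℕ} {q : ℕ → Bool} : allB N q = true ↔ ∀ k < N, q k = true := by
  unfold allB
  induction N with
  | zero => simp
  | succ N ih =>
    rw [iter_succ, Bool.and_eq_true, ih]
    constructor
    · rintro ⟨h1, h2⟩ k hk
      rcases Nat.lt_succ_iff_lt_or_eq.1 hk with h | rfl
      · exact h1 k h
      · exact h2
    · exact fun h => ⟨fun k hk => h k (by omega), h N (by omega)⟩

@[fun_prop] theorem fp_allB {n : α → ℕ} {q : α → ℕ → Bool} (hn : Primrec n)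
    (hq : Primrec (fun p : α × ℕ => q p.1 p.2)) : Primrec (fun x => allB (n x) (q x)) := by
  unfold allB; fun_prop

/-- The last `k < N` with `q k`. -/
def lastB (N : ℕ) (q : ℕ → Bool) : Option ℕ := iter none (fun k s => bif q k then some k else s) N

theorem lastB_spec {N k : ℕ} {q : ℕ → Bool} (h : lastB N q = some k) : k < N ∧ q k = true := by
  unfold lastB at h
  induction N with
  | zero => simp at h
  | succ N ih =>
    rw [iter_succ] at h
    cases hq : q N
    · rw [hq] at h
      have := ih h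
      exact ⟨by omega, this.2⟩
    · rw [hq] at h
      obtain rfl : N = k := by simpa using h
      exact ⟨by omega, hq⟩

theorem lastB_ge {N k : ℕ} {q : ℕ → Bool} (hk : k < N) (hq : q k = true) :
    ∃ j, k ≤ j ∧ lastB N q = some j := by
  unfold lastB
  induction N with
  | zero => omega
  | succ N ih =>
    rw [iter_succ]
    cases hN : q N
    · have : k ≠ N := by rintro rfl; simp [hq] at hN
      exact ih (by omega)
    · exact ⟨N, by omega, rfl⟩

@[fun_prop] theorem fp_lastB {n : α → ℕ} {q : α → ℕ → Bool} (hn : Primrec n)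
    (hq : Primrec (fun p : α × ℕ => q p.1 p.2)) : Primrec (fun x => lastB (n x) (q x)) := by
  unfold lastB; fun_prop

end FP

/-- Initial segment of a real. -/
def pre (x : 𝒞) (l : ℕ) : List Bool := (List.range l).map x

/-- A string padded by `false`. -/
def ext (σ : List Bool) (i : ℕ) : Bool := σ.getD i false

@[simp] theorem length_pre (x : 𝒞) (l : ℕ) : (pre x l).length = l := by simp [pre]

theorem ext_pre (x : 𝒞) {l i : ℕ} (h : i < l) : ext (pre x l) i = x i := by
  simp [ext, pre, List.getD_eq_getElem?_getD, h]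

theorem pre_congr {x y : 𝒞} {l : ℕ} (h : ∀ i < l, x i = y i) : pre x l = pre y l :=
  List.map_congr_left fun i hi => h i (List.mem_range.1 hi)

theorem pre_ext (σ : List Bool) : pre (ext σ) σ.length = σ := by
  apply List.ext_getElem (by simp)
  intro i h1 h2
  simp [pre, ext, List.getD_eq_getElem?_getD, h2]

section FP2
variable {α : Type*} [Primcodable α]

@[fun_prop] theorem fp_ext {f : α → List Bool} {g : α → ℕ} (hf : Primrec f) (hg : Primrec g) :
    Primrec (fun x => ext (f x) (g x)) := by
  unfold ext; fun_prop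

@[fun_prop] theorem fp_pre {x : α → 𝒞} {l : α → ℕ} (hx : Primrec (fun p : α × ℕ => x p.1 p.2))
    (hl : Primrec l) : Primrec (fun a => pre (x a) (l a)) := by
  unfold pre; fun_prop

@[fun_prop] theorem CI.pre {O : Set (ℕ →. ℕ)} {x : α → 𝒞} {l : α → ℕ}
    (hx : CI O (fun p : α × ℕ => x p.1 p.2)) (hl : CI O l) : CI O (fun a => pre (x a) (l a)) :=
  CI.map_range hl hx

end FP2

/-- `σ` is an initial segment of `x`. -/
def Pfx (σ : List Bool) (x : 𝒞) : Prop := ∀ i < σ.length, ext σ i = x i

theorem Pfx.eq_pre {σ : List Bool} {x : 𝒞} (h : Pfx σ x) : σ = pre x σ.length := by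
  conv_lhs => rw [← pre_ext σ]
  exact pre_congr h

theorem pfx_pre {x y : 𝒞} {l : ℕ} (h : ∀ i < l, x i = y i) : Pfx (pre x l) y := by
  intro i hi
  rw [length_pre] at hi
  rw [ext_pre x hi, h i hi]

theorem pfx_nil (x : 𝒞) : Pfx [] x := fun i hi => by simp at hi

/-- `Γ` computes `x` from `y`. -/
def Comp (Γ : List Bool → List Bool) (y x : 𝒞) : Prop :=
  (∀ l, Pfx (Γ (pre y l)) x) ∧ ∀ n, ∃ l0, ∀ l, l0 ≤ l → n ≤ (Γ (pre y l)).length

theorem Comp.unique {Γ : List Bool → List Bool} {y x x' : 𝒞} (h : Comp Γ y x) (h' : Comp Γ y x') :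
    x = x' := by
  funext n
  obtain ⟨l, hl⟩ := h.2 (n + 1)
  have := hl l le_rfl
  rw [← h.1 l n (by omega), ← h'.1 l n (by omega)]

/-- Search principle. -/
theorem tr_of_search {β : Type*} [Primcodable β] {O : Set (ℕ →. ℕ)} {z : 𝒞} {ψ : β → List Bool}
    (hψ : CI O ψ) (h1 : ∀ b, Pfx (ψ b) z) (h2 : ∀ n, ∃ b, n < (ψ b).length) : CI O z := by
  obtain ⟨b0, -⟩ := h2 0
  set ψ' : ℕ → List Bool := fun k => ψ ((decode (α := β) k).getD b0) with hψ'
  have hc : CI O ψ' := hψ.comp (CI.of_primrec (by fun_prop))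
  have hex : ∀ n, ∃ k, ltN n (ψ' k).length = true := by
    intro n
    obtain ⟨b, hb⟩ := h2 n
    exact ⟨encode b, by simpa [hψ'] using hb⟩
  have hf : CI O (fun n => Nat.find (hex n)) :=
    CI.find (p := fun n k => ltN n (ψ' k).length) (by fun_prop) hex
  have hz : CI O (fun n => ext (ψ' (Nat.find (hex n))) n) := by fun_prop
  refine hz.of_eq fun n => h1 _ n ?_
  simpa using Nat.find_spec (hex n)

theorem Comp.tr {Γ : List Bool → List Bool} (hΓ : Primrec Γ) {y x : 𝒞} (h : Comp Γ y x) :
    x ≤ₜ y := by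
  have hy := tr_refl y
  refine tr_of_search (ψ := fun l => Γ (pre y l)) (by fun_prop) h.1 fun n => ?_
  obtain ⟨l, hl⟩ := h.2 (n + 1)
  exact ⟨l, hl l le_rfl⟩

/-- Finite approximations of a partial function computed from an oracle. -/
def Approx (y : 𝒞) (f : ℕ →. ℕ) : Prop :=
  ∃ φ : List Bool → ℕ → Option ℕ, Primrec (fun p : List Bool × ℕ => φ p.1 p.2) ∧
    (∀ l n m, φ (pre y l) n = some m → m ∈ f n) ∧
    ∀ n m, m ∈ f n → ∃ l0, ∀ l, l0 ≤ l → φ (pre y l) n = some m

theorem approx_total (y : 𝒞) {g : ℕ → ℕ} (hg : Primrec g) {f : ℕ →. ℕ}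
    (hf : ∀ n, f n = Part.some (g n)) : Approx y f := by
  refine ⟨fun _ n => some (g n), by fun_prop, fun l n m h => ?_, fun n m h => ⟨0, fun l _ => ?_⟩⟩
  · rw [hf, Part.mem_some_iff]
    exact (Option.some.inj h).symm
  · rw [hf, Part.mem_some_iff] at h
    rw [h]

theorem exists_forall_lt {P : ℕ → ℕ → Prop} (k : ℕ) (h : ∀ j < k, ∃ l0, ∀ l, l0 ≤ l → P j l) :
    ∃ l0, ∀ l, l0 ≤ l → ∀ j < k, P j l := by
  induction k with
  | zero => exact ⟨0, fun _ _ j hj => by omega⟩
  | succ k ih =>
    obtain ⟨a, ha⟩ := ih fun j hj => h j (by omega)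
    obtain ⟨b, hb⟩ := h k (by omega)
    refine ⟨max a b, fun l hl j hj => ?_⟩
    rcases Nat.lt_succ_iff_lt_or_eq.1 hj with h' | rfl
    · exact ha l (by omega) j h'
    · exact hb l (by omega)

theorem approx_of_recursiveIn (y : 𝒞) {f : ℕ →. ℕ} (hf : Nat.RecursiveIn {chi y} f) :
    Approx y f := by
  induction hf with
  | zero => exact approx_total y (g := fun _ => 0) (by fun_prop) fun _ => rfl
  | succ => exact approx_total y (g := fun n => n + 1) (by fun_prop) fun _ => rfl
  | left => exact approx_total y (g := fun n => n.unpair.1) (by fun_prop) fun _ => rfl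
  | right => exact approx_total y (g := fun n => n.unpair.2) (by fun_prop) fun _ => rfl
  | oracle g hg =>
    rw [Set.mem_singleton_iff.1 hg]
    refine ⟨fun σ n => bif ltN n σ.length then some (bif ext σ n then 1 else 0) else none,
      by fun_prop, fun l n m h => ?_, fun n m h => ⟨n + 1, fun l hl => ?_⟩⟩
    · by_cases hn : n < l
      · have : ltN n (pre y l).length = true := by simpa using hn
        simp only [this, cond_true, ext_pre y hn] at h
        simp only [chi, Part.mem_some_iff]
        exact (Option.some.inj h).symm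
      · have : ltN n (pre y l).length = false := by
          rw [← Bool.not_eq_true]; simpa using hn
        simp only [this, cond_false] at h
        cases h
    · have : ltN n (pre y l).length = true := by simpa using hl
      simp only [chi, Part.mem_some_iff] at h
      simp only [this, cond_true, ext_pre y (show n < l by omega), h]
  | @pair f h _ _ ihf ihh =>
    obtain ⟨φ, p1, s1, c1⟩ := ihf
    obtain ⟨ψ, p2, s2, c2⟩ := ihh
    refine ⟨fun σ n => (φ σ n).bind fun a => (ψ σ n).map fun b => Nat.pair a b, by fun_prop,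
      fun l n m hm => ?_, fun n m hm => ?_⟩
    · simp only [Option.bind_eq_some_iff, Option.map_eq_some_iff] at hm
      obtain ⟨a, ha, b, hb, rfl⟩ := hm
      simp only [Seq.seq, Part.map_eq_map, Part.mem_bind_iff, Part.mem_map_iff]
      exact ⟨_, ⟨a, s1 _ _ _ ha, rfl⟩, b, s2 _ _ _ hb, rfl⟩
    · simp only [Seq.seq, Part.map_eq_map, Part.mem_bind_iff, Part.mem_map_iff] at hm
      obtain ⟨_, ⟨a, ha, rfl⟩, b, hb, rfl⟩ := hm
      obtain ⟨l1, h1⟩ := c1 _ _ ha
      obtain ⟨l2, h2⟩ := c2 _ _ hb
      refine ⟨max l1 l2, fun l hl => ?_⟩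
      simp [h1 l (by omega), h2 l (by omega)]
  | @comp f h _ _ ihf ihh =>
    obtain ⟨φ, p1, s1, c1⟩ := ihf
    obtain ⟨ψ, p2, s2, c2⟩ := ihh
    refine ⟨fun σ n => (ψ σ n).bind fun a => φ σ a, by fun_prop,
      fun l n m hm => ?_, fun n m hm => ?_⟩
    · simp only [Option.bind_eq_some_iff] at hm
      obtain ⟨a, ha, hb⟩ := hm
      simp only [Part.bind_eq_bind, Part.mem_bind_iff]
      exact ⟨a, s2 _ _ _ ha, s1 _ _ _ hb⟩
    · simp only [Part.bind_eq_bind, Part.mem_bind_iff] at hm
      obtain ⟨a, ha, hb⟩ := hm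
      obtain ⟨l1, h1⟩ := c1 _ _ hb
      obtain ⟨l2, h2⟩ := c2 _ _ ha
      refine ⟨max l1 l2, fun l hl => ?_⟩
      simp [h1 l (by omega), h2 l (by omega)]
  | @prec f h _ _ ihf ihh =>
    obtain ⟨φ, p1, s1, c1⟩ := ihf
    obtain ⟨ψ, p2, s2, c2⟩ := ihh
    refine ⟨fun σ p => iter (φ σ p.unpair.1)
      (fun k IH => IH.bind fun i => ψ σ (Nat.pair p.unpair.1 (Nat.pair k i))) p.unpair.2,
      by fun_prop, fun l p m hm => ?_, fun p m hm => ?_⟩
    · simp only at hm ⊢
      generalize p.unpair.2 = n at hm ⊢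
      induction n generalizing m with
      | zero => exact s1 _ _ _ hm
      | succ n ih =>
        simp only [iter_succ, Option.bind_eq_some_iff] at hm
        obtain ⟨i, hi, hm⟩ := hm
        simp only [Part.bind_eq_bind, Part.mem_bind_iff]
        exact ⟨i, ih i hi, s2 _ _ _ hm⟩
    · simp only at hm ⊢
      generalize p.unpair.2 = n at hm ⊢
      induction n generalizing m with
      | zero => exact c1 _ _ hm
      | succ n ih =>
        simp only [Part.bind_eq_bind, Part.mem_bind_iff] at hm
        obtain ⟨i, hi, hm⟩ := hm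
        obtain ⟨l1, h1⟩ := ih i hi
        obtain ⟨l2, h2⟩ := c2 _ _ hm
        refine ⟨max l1 l2, fun l hl => ?_⟩
        simp [iter_succ, h1 l (by omega), h2 l (by omega)]
  | @rfind f _ ihf =>
    obtain ⟨φ, p1, s1, c1⟩ := ihf
    have sound : ∀ l a m, (eqB (φ (pre y l) (Nat.pair a m)) (some 0) &&
        allB m fun j => ltN 0 ((φ (pre y l) (Nat.pair a j)).getD 0)) = true →
        m ∈ Nat.rfind fun n => (fun m => decide (m = 0)) <$> f (Nat.pair a n) := by
      intro l a m hm
      simp only [Bool.and_eq_true, eqB_iff, allB_iff, ltN_iff] at hm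
      rw [Nat.mem_rfind]
      simp only [Part.map_eq_map, Part.mem_map_iff]
      refine ⟨⟨0, s1 _ _ _ hm.1, by simp⟩, fun {j} hj => ?_⟩
      have h1 := hm.2 j hj
      cases e : φ (pre y l) (Nat.pair a j) with
      | none => simp [e] at h1
      | some b =>
        rw [e] at h1
        refine ⟨b, s1 _ _ _ e, ?_⟩
        simp only [Option.getD_some] at h1
        simp only [decide_eq_false_iff_not]
        omega
    refine ⟨fun σ a => lastB σ.length fun m => eqB (φ σ (Nat.pair a m)) (some 0) &&
      allB m fun j => ltN 0 ((φ σ (Nat.pair a j)).getD 0), by fun_prop,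
      fun l a m hm => sound l a m (lastB_spec hm).2, fun a m hm => ?_⟩
    have hm' := hm
    rw [Nat.mem_rfind] at hm'
    simp only [Part.map_eq_map, Part.mem_map_iff] at hm'
    obtain ⟨⟨b, hb, hb0⟩, hlt⟩ := hm'
    obtain rfl : b = 0 := by simpa using hb0
    obtain ⟨l1, h1⟩ := c1 _ _ hb
    obtain ⟨l2, h2⟩ := exists_forall_lt
      (P := fun j l => 0 < (φ (pre y l) (Nat.pair a j)).getD 0) m fun j hj => by
        obtain ⟨b, hb, hb0⟩ := hlt hj
        obtain ⟨l0, h0⟩ := c1 _ _ hb
        refine ⟨l0, fun l hl => ?_⟩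
        rw [h0 l hl]
        simp only [decide_eq_false_iff_not] at hb0
        simp only [Option.getD_some]
        omega
    refine ⟨max (max l1 l2) (m + 1), fun l hl => ?_⟩
    obtain ⟨j, -, hj⟩ := lastB_ge (N := (pre y l).length) (k := m)
      (q := fun m => eqB (φ (pre y l) (Nat.pair a m)) (some 0) &&
        allB m fun j => ltN 0 ((φ (pre y l) (Nat.pair a j)).getD 0)) (by simp; omega) (by
        simp only [Bool.and_eq_true, eqB_iff, allB_iff, ltN_iff]
        exact ⟨h1 l (by omega), h2 l (by omega)⟩)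
    simp only
    rw [hj, Part.mem_unique (sound l a j (lastB_spec hj).2) hm]

/-- Normal form of Turing reducibility. -/
theorem exists_comp {x y : 𝒞} (h : x ≤ₜ y) : ∃ Γ, Primrec Γ ∧ Comp Γ y x := by
  obtain ⟨φ, p1, s1, c1⟩ :=
    approx_of_recursiveIn y (RecursiveIn.iff_nat.1 (tr_iff_reducible.1 h))
  refine ⟨fun σ => pre (fun j => eqB (φ σ j) (some 1))
    ((lastB (σ.length + 1) fun k => allB k fun j => (φ σ j).isSome).getD 0), by fun_prop,
    fun l => pfx_pre fun i hi => ?_, fun n => ?_⟩
  · cases e : lastB ((pre y l).length + 1) fun k => allB k fun j => (φ (pre y l) j).isSome with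
    | none => rw [e] at hi; simp at hi
    | some k =>
      rw [e, Option.getD_some] at hi
      have h1 := allB_iff.1 (lastB_spec e).2 i hi
      obtain ⟨m, hm⟩ := Option.isSome_iff_exists.1 h1
      have h2 := s1 _ _ _ hm
      simp only [chi, Part.mem_some_iff] at h2
      rw [hm, h2]
      cases x i <;> rfl
  · obtain ⟨l0, h0⟩ := exists_forall_lt (P := fun j l => (φ (pre y l) j).isSome = true) n
      fun j _ => by
        obtain ⟨l0, h0⟩ := c1 j (bif x j then 1 else 0) (by simp [chi])
        exact ⟨l0, fun l hl => by rw [h0 l hl]; rfl⟩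
    refine ⟨max l0 n, fun l hl => ?_⟩
    obtain ⟨j, hj, e⟩ := lastB_ge (N := (pre y l).length + 1) (k := n)
      (q := fun k => allB k fun j => (φ (pre y l) j).isSome) (by simp; omega)
      (allB_iff.2 (h0 l (by omega)))
    simp only [length_pre] at e ⊢
    rw [e]
    exact hj

/-- Primitive recursive string maps. -/
def PR : Type := {Γ : List Bool → List Bool // Primrec Γ}

instance : Nonempty PR := ⟨⟨fun σ => σ, Primrec.id⟩⟩

instance : Countable PR := by
  have h : ∀ Γ : PR, ∃ c : Nat.Partrec.Code, c.eval =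
      fun n => Part.bind (decode (α := List Bool) n) fun a => (Part.some (Γ.1 a)).map encode :=
    fun Γ => Nat.Partrec.Code.exists_code.1 Γ.2.to_comp
  choose c hc using h
  refine Function.Injective.countable (f := c) fun Γ Γ' e => Subtype.ext (funext fun σ => ?_)
  have h1 := congrFun (hc Γ) (encode σ)
  rw [e, hc Γ'] at h1
  simpa using h1.symm

theorem tr_iff {x y : 𝒞} : x ≤ₜ y ↔ ∃ Γ : PR, Comp Γ.1 y x :=
  ⟨fun h => let ⟨Γ, h1, h2⟩ := exists_comp h; ⟨⟨Γ, h1⟩, h2⟩, fun ⟨Γ, h⟩ => h.tr Γ.2⟩

end Crest.Agent.R292
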