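import Crest.Agent.R292.Generic

/-! Row 292: decoding a real from the values of a generic representation. -/

set_option autoImplicit false

open Filter Function Crest.Agent.Lib.Computability

namespace Crest.Agent.R292

/-- Triangular maps with unit diagonal. -/
def Tri (f : 𝒞 → 𝒞) : Prop :=
  ∀ (x x' : 𝒞) (j : ℕ), (∀ i < j, x i = x' i) → (f x j = f x' j ↔ x j = x' j)

theorem Tri.injective {f : 𝒞 → 𝒞} (h : Tri f) : Injective f := by
  intro x x' e
  funext j
  induction j using Nat.strong_induction_on with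
  | _ j ih => exact (h x x' j ih).1 (congrFun e j)

/-- Approximations to the preimage under a triangular map. -/
def triInv (f : 𝒞 → 𝒞) (y : 𝒞) (j : ℕ) : List Bool :=
  iter [] (fun j τ => τ ++ [xor (y j) (f (ext τ) j)]) j

theorem ext_length (σ : List Bool) : ext σ σ.length = false := by simp [ext]

theorem Tri.inv {f : 𝒞 → 𝒞} (h : Tri f) (y : 𝒞) : f (fun j => ext (triInv f y (j + 1)) j) = y := by
  set x : 𝒞 := fun j => ext (triInv f y (j + 1)) j with hx
  have hlen : ∀ j, (triInv f y j).length = j := by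
    intro j
    induction j with
    | zero => rfl
    | succ j ih =>
      unfold triInv at ih ⊢
      rw [iter_succ, List.length_append, ih]
      rfl
  have hx' : ∀ j, x j = xor (y j) (f (ext (triInv f y j)) j) := by
    intro j
    have := hlen j
    simp only [hx, ext]
    unfold triInv at this ⊢
    rw [iter_succ, List.getD_append_right _ _ _ _ (by omega), this]
    simp
  have hpre : ∀ j, triInv f y j = pre x j := by
    intro j
    induction j with
    | zero => rfl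
    | succ j ih =>
      have e : triInv f y (j + 1) = triInv f y j ++ [xor (y j) (f (ext (triInv f y j)) j)] := rfl
      rw [e, ← hx', ih]
      simp [pre, List.range_succ]
  funext j
  have h1 := h x (ext (triInv f y j)) j fun i hi => by rw [hpre, ext_pre x hi]
  have h2 : ext (triInv f y j) j = false := by
    have := ext_length (triInv f y j)
    rwa [hlen] at this
  rw [h2, hx'] at h1
  revert h1
  cases f x j <;> cases y j <;> cases f (ext (triInv f y j)) j <;> simp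

theorem Tri.tr {f : 𝒞 → 𝒞} (h : Tri f) {O : Set (ℕ →. ℕ)}
    (hf : CI O fun p : List Bool × ℕ => f (ext p.1) p.2) {x : 𝒞} (hx : CI O (f x)) : CI O x := by
  have e : (fun j => ext (triInv f (f x) (j + 1)) j) = x := h.injective (h.inv (f x))
  rw [← e]
  generalize f x = y at hx
  have h1 : CI O fun p : ℕ × ℕ × List Bool => f (ext p.2.2) p.2.1 :=
    (hf.comp (g := fun p : ℕ × ℕ × List Bool => (p.2.2, p.2.1)) (by fun_prop)).of_eq fun _ => rfl
  have h2 : CI O fun p : ℕ × ℕ × List Bool =>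
      p.2.2 ++ [xor (y p.2.1) (f (ext p.2.2) p.2.1)] := by
    have h3 : Primrec fun q : List Bool × Bool × Bool => q.1 ++ [xor q.2.1 q.2.2] := by fun_prop
    have h4 : CI O fun p : ℕ × ℕ × List Bool => p.2.2 := by fun_prop
    have h5 : CI O fun p : ℕ × ℕ × List Bool => y p.2.1 := by fun_prop
    exact ((CI.of_primrec h3).comp (h4.pair (h5.pair h1))).of_eq fun _ => rfl
  have h3 : CI O fun j => triInv f y (j + 1) :=
    CI.iterate (s := fun _ j τ => τ ++ [xor (y j) (f (ext τ) j)]) (by fun_prop) (by fun_prop) h2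
  have h4 : Primrec fun q : List Bool × ℕ => ext q.1 q.2 := by fun_prop
  exact ((CI.of_primrec h4).comp (h3.pair CI.id)).of_eq fun _ => rfl

theorem tri_open {c : ℕ} {L : (ℕ → 𝒞) → 𝒞} (hL : Continuous L)
    (h : ∀ z, Tri fun x => L (update z c x)) :
    Continuous (fun z => update z c (L z)) ∧ IsOpenMap fun z => update z c (L z) := by
  have hc : Continuous fun z => update z c (L z) := continuous_id.update c hL
  refine ⟨hc, (isHomeomorph_iff_continuous_bijective.2 ⟨hc, fun z z' e => ?_, fun y => ?_⟩).isOpenMap⟩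
  · have e1 : z' = update z c (z' c) := by
      funext k
      by_cases hk : k = c
      · subst hk; simp
      · have := congrFun e k
        simp only [update_of_ne hk] at this ⊢
        exact this.symm
    have e2 : L z = L z' := by simpa using congrFun e c
    have e3 : z c = z' c := (h z).injective (by
      simp only [update_eq_self]
      rw [← e1, e2])
    rw [e1, ← e3, update_eq_self]
  · refine ⟨update y c fun j => ext (triInv (fun x => L (update y c x)) (y c) (j + 1)) j, ?_⟩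
    simp only [update_idem]
    rw [(h y).inv (y c), update_eq_self]

theorem proj2_open {c c' : ℕ} (h : c ≠ c') : IsOpenMap fun z : ℕ → 𝒞 => (z c, z c') := by
  refine IsOpenMap.of_sections fun x => ⟨fun p => update (update x c p.1) c' p.2, ?_, by simp,
    fun p => ?_⟩
  · exact ((continuous_const.update c continuous_fst).update c' continuous_snd).continuousAt
  · simp [update_of_ne h]

theorem proj2_surj {c c' : ℕ} (h : c ≠ c') : Surjective fun z : ℕ → 𝒞 => (z c, z c') := fun p =>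
  ⟨update (update (fun _ _ => false) c p.1) c' p.2, by simp [update_of_ne h]⟩

/-- Sum mod two. -/
def xsum (k : ℕ) (f : ℕ → Bool) : Bool := iter false (fun l s => xor s (f l)) k

theorem xsum_succ (k : ℕ) (f : ℕ → Bool) : xsum (k + 1) f = xor (f 0) (xsum k fun l => f (l + 1)) := by
  unfold xsum
  induction k with
  | zero => simp
  | succ k ih => rw [iter_succ, ih, iter_succ, Bool.xor_assoc]

/-- The coordinate used for the bit `b`. -/
def cb (b : Bool) : ℕ := bif b then 2 else 1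

theorem cb_ne (b : Bool) : cb b ≠ 0 := by cases b <;> simp [cb]

/-- The orbit coding the sequence `i`. -/
def Yv (i v w0 w1 : 𝒞) (n j : ℕ) : Bool :=
  xsum (j + 1) fun l => xor (bif i (n + l) then w1 (j - l) else w0 (j - l)) (sh v (j - l))

/-- The orbit coding the sequence `i`. -/
def Yz (i : 𝒞) (z : ℕ → 𝒞) (n : ℕ) : 𝒞 := Yv i (z 0) (z 1) (z 2) n

theorem Yz_eq (i : 𝒞) (z : ℕ → 𝒞) (n : ℕ) :
    Yz i z n = xr (z (cb (i n))) (sh (xr (Yz i z (n + 1)) (z 0))) := by
  funext j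
  have e : ∀ m, (bif i n then z 2 m else z 1 m) = z (cb (i n)) m := by
    intro m; cases i n <;> rfl
  cases j with
  | zero => simp [Yz, Yv, xsum, xr, e]
  | succ j =>
    simp only [Yz, Yv, xr, sh_succ]
    rw [xsum_succ]
    simp only [Nat.add_zero, Nat.sub_zero, e, sh_succ, Nat.add_sub_add_right, Nat.add_assoc,
      Nat.add_comm 1]
    cases z (cb (i n)) (j + 1) <;> cases z 0 j <;> simp

theorem Yz_zero (i : 𝒞) (z : ℕ → 𝒞) (n : ℕ) : Yz i z n 0 = z (cb (i n)) 0 := by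
  rw [Yz_eq]; simp [xr]

theorem Yz_succ (i : 𝒞) (z : ℕ → 𝒞) (n j : ℕ) :
    Yz i z n (j + 1) = xor (z (cb (i n)) (j + 1)) (xor (Yz i z (n + 1) j) (z 0 j)) := by
  rw [Yz_eq]; simp [xr]

theorem continuous_Yz (i : 𝒞) (n : ℕ) : Continuous fun z => Yz i z n := by
  refine continuous_pi fun j => ?_
  induction j generalizing n with
  | zero => simp only [Yz_zero]; fun_prop
  | succ j ih =>
    simp only [Yz_succ]
    have hx := continuous_of_discreteTopology (f := fun p : Bool × Bool => xor p.1 p.2)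
    exact hx.comp (Continuous.prodMk (by fun_prop) (hx.comp ((ih _).prodMk (by fun_prop))))

theorem Yz_dep (i : 𝒞) {z z' : ℕ → 𝒞} {j : ℕ} (h : ∀ k, ∀ m < j, z k m = z' k m) (n : ℕ) :
    ∀ m < j, Yz i z n m = Yz i z' n m := by
  intro m hm
  induction m generalizing n with
  | zero => rw [Yz_zero, Yz_zero, h _ _ hm]
  | succ m ih => rw [Yz_succ, Yz_succ, h _ _ hm, h 0 m (by omega), ih _ (by omega)]

theorem update_dep {z : ℕ → 𝒞} {c j : ℕ} {x x' : 𝒞} (h : ∀ i < j, x i = x' i) (k : ℕ) :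
    ∀ m < j, update z c x k m = update z c x' k m := by
  intro m hm
  by_cases hk : k = c
  · subst hk; simp [h m hm]
  · simp [update_of_ne hk]

theorem tri_Yz (i : 𝒞) (n : ℕ) (z : ℕ → 𝒞) : Tri fun x => Yz i (update z (cb (i n)) x) n := by
  intro x x' j h
  cases j with
  | zero => simp [Yz_zero]
  | succ j =>
    simp only [Yz_succ, update_self, update_of_ne (cb_ne (i n)).symm]
    rw [Yz_dep i (update_dep h) (n + 1) j (by omega)]
    simp

theorem tri_Sz (i : 𝒞) (n : ℕ) (z : ℕ → 𝒞) :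
    Tri fun x => xr (Yz i (update z 0 x) n) (update z 0 x 0) := by
  intro x x' j h
  cases j with
  | zero => simp [xr, Yz_zero, update_of_ne (cb_ne _)]
  | succ j =>
    simp only [xr, Yz_succ, update_self, update_of_ne (cb_ne (i n))]
    rw [Yz_dep i (update_dep h) (n + 1) j (by omega), h j (by omega)]
    simp

theorem Yv_ci {α : Type*} [Primcodable α] {O : Set (ℕ →. ℕ)} {i : 𝒞} {v w0 w1 : α → 𝒞}
    (hi : CI O i) (hv : CI O fun p : α × ℕ => v p.1 p.2) (h0 : CI O fun p : α × ℕ => w0 p.1 p.2)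
    (h1 : CI O fun p : α × ℕ => w1 p.1 p.2) (n : ℕ) :
    CI O fun p : α × ℕ => Yv i (v p.1) (w0 p.1) (w1 p.1) n p.2 := by
  unfold Yv xsum sh
  fun_prop

theorem Yz_le {i u : 𝒞} {z : ℕ → 𝒞} (hi : i ≤ₜ u) (h0 : z 0 ≤ₜ u) (h1 : z 1 ≤ₜ u) (h2 : z 2 ≤ₜ u)
    (n : ℕ) : Yz i z n ≤ₜ u := by
  unfold Yz Yv xsum sh
  generalize z 0 = v at h0
  generalize z 1 = w0 at h1
  generalize z 2 = w1 at h2
  fun_prop

theorem exists_cyl_prod {U : Set (𝒞 × 𝒞)} (hU : IsOpen U) {p : 𝒞 × 𝒞} (hp : p ∈ U) :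
    ∃ N, ∀ x y : 𝒞, (∀ n < N, x n = p.1 n) → (∀ n < N, y n = p.2 n) → (x, y) ∈ U := by
  obtain ⟨A, B, hA, hB, h1, h2, hAB⟩ := isOpen_prod_iff.1 hU p.1 p.2 hp
  obtain ⟨N1, hN1⟩ := exists_cyl_subset hA h1
  obtain ⟨N2, hN2⟩ := exists_cyl_subset hB h2
  exact ⟨max N1 N2, fun x y hx hy => hAB ⟨hN1 x fun n hn => hx n (by omega),
    hN2 y fun n hn => hy n (by omega)⟩⟩

/-- The orbit stays close to a fixed point. -/
theorem Yz_near {i u v : 𝒞} {z : ℕ → 𝒞} {N : ℕ} {S : Set ℕ} (hv : ∀ j < N, z 0 j = v j)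
    (hw : ∀ n ∈ S, ∀ j < N, z (cb (i n)) j = xr u (sh (xr u v)) j) :
    ∀ j < N, ∀ n, (∀ l ≤ j, n + l ∈ S) → Yz i z n j = u j := by
  intro j
  induction j with
  | zero =>
    intro hj n hn
    rw [Yz_zero, hw n (hn 0 le_rfl) 0 hj]
    simp [xr]
  | succ j ih =>
    intro hj n hn
    rw [Yz_succ, hw n (hn 0 (by omega)) _ hj, hv j (by omega), ih (by omega) (n + 1)
      fun l hl => by simpa [Nat.add_assoc, Nat.add_comm 1] using hn (l + 1) (by omega)]
    simp [xr]

theorem decode_core {W : ℕ → 𝒞} {i a : 𝒞} {k μ : ℕ}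
    (hstep : ∀ b, UR (fun n : {n // i n = b} => W (n.1 + 1)) fun n => W n.1)
    (hi : ∀ q, ∀ l < k, i (k * q + l) = a q) (hW : ∀ q, W (k * q) μ = a q) : a ≤ₜ W 0 := by
  have h1 : ∀ b m, UR (fun n : {n // ∀ l < m, i (n + l) = b} => W (n.1 + m)) fun n => W n.1 := by
    intro b m
    induction m with
    | zero => exact UR.refl _
    | succ m ih =>
      exact ((hstep b).reindex fun n : {n // ∀ l < m + 1, i (n + l) = b} =>
        ⟨n.1 + m, n.2 m (by omega)⟩).trans
        (ih.reindex fun n : {n // ∀ l < m + 1, i (n + l) = b} =>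
          ⟨n.1, fun l hl => n.2 l (by omega)⟩)
  have h2 : UR (fun q => W (k * (q + 1))) fun q => W (k * q) := by
    refine UR.cases μ fun b => ?_
    exact (h1 b k).reindex fun q : {q // W (k * q) μ = b} =>
      ⟨k * q.1, fun l hl => by rw [hi q.1 l hl, ← hW, q.2]⟩
  have h3 := UR.iterate (W := fun q => W (k * q)) h2 μ
  simp only [hW] at h3
  exact h3

theorem exists_split {F : 𝒞 → 𝒞} (hF : Measurable F) (R3 : ∀ r, ∀ᶠ y in residual 𝒞, F y ≠ r)
    (N : ℕ) (u : 𝒞) : ∃ (μ N' : ℕ) (p : Bool → 𝒞), N ≤ N' ∧ (∀ b, ∀ n < N, p b n = u n) ∧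
      ∀ b, ∀ᶠ y in residual 𝒞, (∀ n < N', y n = p b n) → F y μ = b := by
  have h1 : ∃ μ, ∀ b, ∃ᶠ y in residual 𝒞, (∀ n < N, y n = u n) ∧ F y μ = b := by
    by_contra hc
    push Not at hc
    choose b hb using hc
    obtain ⟨y, hy, h2, h3⟩ := exists_of_ev_open (isOpen_cyl N u) ⟨u, fun _ _ => rfl⟩
      ((eventually_countable_forall.2 hb).and (R3 fun μ => !b μ))
    refine h3 (funext fun μ => ?_)
    have := h2 μ hy
    revert this
    cases F y μ <;> cases b μ <;> simp
  obtain ⟨μ, hμ⟩ := h1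
  have h2 : ∀ b, ∃ (M : ℕ) (p : 𝒞), (∀ n < N, p n = u n) ∧
      ∀ᶠ y in residual 𝒞, (∀ n < M, y n = p n) → F y μ = b := by
    intro b
    have hm : Measurable fun y : 𝒞 => (∀ n < N, y n = u n) ∧ F y μ = b :=
      (measurableSet_setOfPred.1 (isOpen_cyl N u).measurableSet).and
        (measurableSet_setOfPred.1 (((measurable_pi_apply μ).comp hF) (measurableSet_singleton b)))
    obtain ⟨U, hU, hne, h⟩ := exists_open_of_freq hm (hμ b)
    obtain ⟨p, hp, hp'⟩ := exists_of_ev_open hU hne h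
    obtain ⟨M, hM⟩ := exists_cyl_subset hU hp
    exact ⟨M, p, (hp' hp).1, h.mono fun y hy hy' => (hy (hM y hy')).2⟩
  choose M p hp1 hp2 using h2
  refine ⟨μ, max N (max (M true) (M false)), p, by omega, hp1, fun b => (hp2 b).mono
    fun y hy hy' => hy fun n hn => hy' n ?_⟩
  cases b <;> omega

/-- The decoding theorem. -/
theorem decode {F : 𝒞 → 𝒞} (hF : Measurable F)
    (R1 : ∀ᶠ p in residual (𝒞 × 𝒞), F (sh p.1) ≤ₜ jn (F (xr p.2 (sh p.1))) (F p.2))
    (R2 : ∀ᶠ p in residual (𝒞 × 𝒞), F p.1 ≤ₜ jn (F (sh (xr p.1 p.2))) (F p.2))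
    (R3 : ∀ r, ∀ᶠ y in residual 𝒞, F y ≠ r) (a : 𝒞) :
    ∃ i : 𝒞, i ≤ₜ a ∧ ∃ᶠ z in residual (ℕ → 𝒞),
      a ≤ₜ jn (F (Yz i z 0)) (jn (F (z 0)) (jn (F (z 1)) (F (z 2)))) := by
  set ψ : 𝒞 × 𝒞 → 𝒞 × 𝒞 := fun p => (xr p.1 p.2, xr p.1 (sh (xr p.1 p.2))) with hψ
  set ψ' : 𝒞 × 𝒞 → 𝒞 × 𝒞 := fun q => (xr q.2 (sh q.1), xr q.1 (xr q.2 (sh q.1))) with hψ'
  have c1 : Continuous ψ := by simp only [hψ]; fun_prop
  have c2 : Continuous ψ' := by simp only [hψ']; fun_prop
  have i1 : ∀ p, ψ' (ψ p) = p := fun p => by simp [hψ, hψ']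
  have i2 : ∀ q, ψ (ψ' q) = q := fun q => by simp [hψ, hψ']
  have o1 : IsOpenMap ψ := IsOpenMap.of_inverse c2 i2 i1
  have o2 : IsOpenMap ψ' := IsOpenMap.of_inverse c1 i1 i2
  set A : PR → 𝒞 × 𝒞 → Prop :=
    fun Γ p => Comp Γ.1 (jn (F (xr p.2 (sh p.1))) (F p.2)) (F (sh p.1)) with hA
  set B : PR → 𝒞 × 𝒞 → Prop :=
    fun Γ p => Comp Γ.1 (jn (F (sh (xr p.1 p.2))) (F p.2)) (F p.1) with hB
  have mA : ∀ Γ, Measurable (A Γ) := fun Γ => measurable_comp (by fun_prop) (by fun_prop) _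
  have mB : ∀ Γ, Measurable (B Γ) := fun Γ => measurable_comp (by fun_prop) (by fun_prop) _
  have h1 : ∀ᶠ p in residual (𝒞 × 𝒞), ∃ Γ : PR × PR, A Γ.1 (ψ p) ∧ B Γ.2 p := by
    filter_upwards [ev_pull c1 o1 R1, R2] with p h1 h2
    obtain ⟨Γ1, h1⟩ := tr_iff.1 h1
    obtain ⟨Γ2, h2⟩ := tr_iff.1 h2
    exact ⟨(Γ1, Γ2), h1, h2⟩
  obtain ⟨⟨Γ1, Γ2⟩, h2⟩ := freq_exists (freq_of_ev h1)
  obtain ⟨U, hU, ⟨⟨u, v⟩, huv⟩, h3⟩ :=
    exists_open_of_freq (((mA Γ1).comp c1.measurable).and (mB Γ2)) h2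
  have h4 : ∀ᶠ q in residual (𝒞 × 𝒞), ψ' q ∈ U → A Γ1 q := by
    filter_upwards [ev_pull c2 o2 h3] with q hq hq'
    have := (hq hq').1
    simp only [comp_apply, i2] at this
    exact this
  have h5 : ∀ᶠ p in residual (𝒞 × 𝒞), p ∈ U → B Γ2 p := h3.mono fun p hp hp' => (hp hp').2
  obtain ⟨N, hN⟩ := exists_cyl_prod hU huv
  obtain ⟨μ, N', p, hNN, hp1, hp2⟩ := exists_split hF R3 N u
  set i : 𝒞 := fun n => a (n / (N' + 1)) with hi
  have hi' : ∀ q, ∀ l < N' + 1, i ((N' + 1) * q + l) = a q := by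
    intro q l hl
    simp only [hi]
    rw [Nat.mul_add_div (by omega), Nat.div_eq_of_lt hl, Nat.add_zero]
  refine ⟨i, ?_, ?_⟩
  · have := tr_refl a
    simp only [hi]
    fun_prop
  set z0 : ℕ → 𝒞 := fun k => if k = 0 then v else
    xr (p (decide (k = 2))) (sh (xr (p (decide (k = 2))) v)) with hz0
  have hz0' : ∀ b, z0 (cb b) = xr (p b) (sh (xr (p b) v)) := by
    intro b; cases b <;> simp [hz0, cb]
  have hO : IsOpen {z : ℕ → 𝒞 | ∀ k < 3, ∀ n < N', z k n = z0 k n} := by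
    have e : {z : ℕ → 𝒞 | ∀ k < 3, ∀ n < N', z k n = z0 k n} =
        ⋂ k ∈ Finset.range 3, (fun z : ℕ → 𝒞 => z k) ⁻¹' {y | ∀ n < N', y n = z0 k n} := by
      ext z; simp
    rw [e]
    exact isOpen_biInter_finset fun k _ => (isOpen_cyl N' (z0 k)).preimage (continuous_apply k)
  have e1 : ∀ n, ∀ᶠ z in residual (ℕ → 𝒞), (Yz i z n, z 0) ∈ U → B Γ2 (Yz i z n, z 0) := by
    intro n
    obtain ⟨t1, t2⟩ := tri_open (continuous_Yz i n) (tri_Yz i n)
    have := ev_pull t1 t2 (ev_pull (by fun_prop) (proj2_open (cb_ne (i n))) h5)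
    simpa only [update_self, update_of_ne (cb_ne (i n)).symm] using this
  have e2 : ∀ n, ∀ᶠ z in residual (ℕ → 𝒞), ψ' (xr (Yz i z (n + 1)) (z 0), z (cb (i n))) ∈ U →
      A Γ1 (xr (Yz i z (n + 1)) (z 0), z (cb (i n))) := by
    intro n
    obtain ⟨t1, t2⟩ := tri_open (L := fun z => xr (Yz i z (n + 1)) (z 0))
      (continuous_xr (continuous_Yz i (n + 1)) (continuous_apply 0)) (tri_Sz i (n + 1))
    have := ev_pull t1 t2 (ev_pull (by fun_prop) (proj2_open (cb_ne (i n)).symm) h4)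
    simpa only [update_self, update_of_ne (cb_ne (i n))] using this
  have e3 : ∀ n b, ∀ᶠ z in residual (ℕ → 𝒞),
      (∀ m < N', Yz i z n m = p b m) → F (Yz i z n) μ = b := by
    intro n b
    obtain ⟨t1, t2⟩ := tri_open (continuous_Yz i n) (tri_Yz i n)
    have := ev_pull t1 t2 (ev_pull (continuous_apply (cb (i n))) (isOpenMap_eval (cb (i n))) (hp2 b))
    simpa only [update_self] using this
  refine (freq_of_open hO ⟨z0, fun _ _ _ _ => rfl⟩ (p := fun z =>
    a ≤ₜ jn (F (Yz i z 0)) (jn (F (z 0)) (jn (F (z 1)) (F (z 2))))) ?_).mono fun _ h => h.2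
  filter_upwards [eventually_countable_forall.2 e1, eventually_countable_forall.2 e2,
    eventually_countable_forall.2 fun n => eventually_countable_forall.2 (e3 n)] with z f1 f2 f3 hz
  have hv : ∀ j < N', z 0 j = v j := fun j hj => hz 0 (by omega) j hj
  have hw : ∀ b, ∀ j < N', z (cb b) j = xr (p b) (sh (xr (p b) v)) j := fun b j hj => by
    rw [← hz0']
    exact hz _ (by cases b <;> simp [cb]) j hj
  have hy : ∀ n, ∀ j < N, Yz i z n j = u j := by
    intro n j hj
    refine Yz_near (S := Set.univ) (v := v) (fun j hj => hv j (by omega)) (fun n _ j hj => ?_) j hj n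
      fun _ _ => trivial
    rw [hw _ j (by omega)]
    cases j with
    | zero => simp [xr, hp1 _ 0 hj]
    | succ j => simp [xr, hp1 _ (j + 1) hj, hp1 _ j (by omega)]
  have hU' : ∀ n, (Yz i z n, z 0) ∈ U := fun n => hN _ _ (hy n) fun j hj => hv j (by omega)
  have g1 : ∀ n, Comp Γ2.1 (jn (F (sh (xr (Yz i z n) (z 0)))) (F (z 0))) (F (Yz i z n)) :=
    fun n => f1 n (hU' n)
  have g2 : ∀ n, Comp Γ1.1 (jn (F (Yz i z n)) (F (z (cb (i n)))))
      (F (sh (xr (Yz i z (n + 1)) (z 0)))) := by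
    intro n
    have h := f2 n (by
      simp only [hψ', ← Yz_eq]
      refine hN _ _ (hy n) fun j hj => ?_
      simp only [xr, hy _ j hj, hv j (by omega)]
      cases u j <;> cases v j <;> rfl)
    simp only [hA, ← Yz_eq] at h
    exact h
  refine decode_core (W := fun n => jn (F (Yz i z n)) (jn (F (z 0)) (jn (F (z 1)) (F (z 2)))))
    (k := N' + 1) (μ := 2 * μ) (fun b => ?_) hi' fun q => ?_
  · have u0 : UR (fun _ : {n // i n = b} => jn (F (z 0)) (jn (F (z 1)) (F (z 2))))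
        fun n => jn (F (Yz i z n.1)) (jn (F (z 0)) (jn (F (z 1)) (F (z 2)))) := UR.right _ _
    have u1 := (UR.left (fun _ : {n // i n = b} => F (z 0))
      fun _ => jn (F (z 1)) (F (z 2))).trans u0
    have u2 := (UR.right (fun _ : {n // i n = b} => F (z 0))
      fun _ => jn (F (z 1)) (F (z 2))).trans u0
    have u3 : UR (fun _ : {n // i n = b} => F (z (cb b)))
        fun n => jn (F (Yz i z n.1)) (jn (F (z 0)) (jn (F (z 1)) (F (z 2)))) := by
      cases b
      · exact (UR.left _ fun _ => F (z 2)).trans u2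
      · exact (UR.right (fun _ => F (z 1)) _).trans u2
    have u4 : UR (fun n : {n // i n = b} => F (sh (xr (Yz i z (n.1 + 1)) (z 0))))
        fun n => jn (F (Yz i z n.1)) (F (z (cb b))) :=
      ⟨Γ1.1, Γ1.2, fun n => by have := g2 n.1; rwa [n.2] at this⟩
    have u5 : UR (fun n : {n // i n = b} => F (Yz i z (n.1 + 1)))
        fun n => jn (F (sh (xr (Yz i z (n.1 + 1)) (z 0)))) (F (z 0)) :=
      ⟨Γ2.1, Γ2.2, fun n => g1 (n.1 + 1)⟩
    exact (u5.trans ((u4.trans ((UR.left _ _).jn u3)).jn u1)).jn u0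
  · simp only [jn_even]
    refine f3 _ _ fun m hm => ?_
    refine Yz_near (S := {n | i n = a q}) (v := v) hv (fun n hn j hj => ?_) m hm _
      fun l hl => hi' q l (by omega)
    rw [show i n = a q from hn]
    exact hw _ j hj

end Crest.Agent.R292
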