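import Crest.Agent.R292.Basic

/-! Row 292: generic reals; coding of sets by an independent sequence; one-time pads. -/

set_option autoImplicit false

open Filter Encodable Crest.Agent.Lib.Computability

namespace Crest.Agent.R292

theorem ev_not_comp {f h : 𝒞 → 𝒞} (hf : Continuous f) (hh : Continuous h)
    (Γ : List Bool → List Bool)
    (H : ∀ N x, (∀ g : 𝒞, (∀ n < N, g n = x n) → ∀ l, Pfx (Γ (pre (f g) l)) (h g)) →
      ¬ Comp Γ (f x) (h x)) :
    ∀ᶠ g in residual 𝒞, ¬ Comp Γ (f g) (h g) := by
  have hK := isClosed_pfx hf hh Γ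
  set K := {z | ∀ l, Pfx (Γ (pre (f z) l)) (h z)} with hKd
  have hd : Dense (Kᶜ ∪ interior K) := by
    rw [dense_iff_inter_open]
    intro W hW ⟨w, hw⟩
    by_cases hs : W ⊆ K
    · exact ⟨w, hw, Or.inr (interior_maximal hs hW hw)⟩
    · obtain ⟨w', h1, h2⟩ := Set.not_subset.1 hs
      exact ⟨w', h1, Or.inl h2⟩
  filter_upwards [residual_of_dense_open (hK.isOpen_compl.union isOpen_interior) hd] with g hg
  rcases hg with hg | hg
  · exact fun hc => hg hc.1
  · obtain ⟨N, hN⟩ := exists_cyl_subset isOpen_interior hg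
    exact H N g fun g' hg' => interior_subset (hN g' hg')

/-- Generic reals avoid cones. -/
theorem ev_not_le {y z : 𝒞} (h : ¬ z ≤ₜ y) : ∀ᶠ g in residual 𝒞, ¬ z ≤ₜ jn y g := by
  simp only [tr_iff, not_exists]
  refine eventually_countable_forall.2 fun Γ => ?_
  refine ev_not_comp (f := fun g => jn y g) (h := fun _ => z) (by fun_prop) continuous_const Γ.1
    fun N x hN hc => h ?_
  have hy := tr_refl y
  have hΓ := Γ.2
  refine tr_of_search (ψ := fun τ : List Bool => Γ.1 (pre (jn y fun n =>
    bif ltN n N then ext (pre x N) n else ext τ n) τ.length)) ?_ (fun τ => ?_) fun n => ?_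
  · unfold jn; fun_prop
  · refine hN _ (fun n hn => ?_) _
    rw [ltN_iff.2 hn, cond_true, ext_pre x hn]
  · obtain ⟨l, hl⟩ := hc.2 (n + 1)
    refine ⟨pre x l, ?_⟩
    have e : pre (jn y fun n => bif ltN n N then ext (pre x N) n else ext (pre x l) n)
        (pre x l).length = pre (jn y x) l := by
      rw [length_pre]
      refine pre_congr fun i hi => jn_congr rfl ?_
      by_cases hn : i / 2 < N
      · rw [ltN_iff.2 hn, cond_true, ext_pre x hn]
      · have : ltN (i / 2) N = false := by rw [← Bool.not_eq_true]; simpa using hn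
        rw [this, cond_false, ext_pre x (by omega)]
    rw [e]
    exact hl l le_rfl

/-- A functional cannot predict a bit which can be flipped. -/
theorem ev_not_le_of_flip {f h : 𝒞 → 𝒞} (hf : Continuous f) (hh : Continuous h)
    (H : ∀ (N : ℕ) (x : 𝒞), ∃ (n : ℕ) (x' : 𝒞), (∀ i < N, x' i = x i) ∧ f x' = f x ∧
      h x' n ≠ h x n) : ∀ᶠ g in residual 𝒞, ¬ h g ≤ₜ f g := by
  simp only [tr_iff, not_exists]
  refine eventually_countable_forall.2 fun Γ => ?_
  refine ev_not_comp hf hh Γ.1 fun N x hN hc => ?_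
  obtain ⟨n, x', h1, h2, h3⟩ := H N x
  obtain ⟨l, hl⟩ := hc.2 (n + 1)
  have h4 := hl l le_rfl
  have h5 := hN x' h1 l n (by rw [h2]; omega)
  rw [h2, hc.1 l n (by omega)] at h5
  exact h3 h5.symm

theorem ev_not_le' (y : 𝒞) : ∀ᶠ x in residual 𝒞, ¬ x ≤ₜ y := by
  refine ev_not_le_of_flip (f := fun _ => y) (h := fun x => x) continuous_const continuous_id
    fun N x => ⟨N, Function.update x N (!x N), fun i hi => ?_, rfl, ?_⟩
  · rw [Function.update_of_ne (by omega)]
  · simp

/-- Erase a column. -/
def erase (n : ℕ) (G : 𝒞) (p : ℕ) : Bool := bif eqB p.unpair.1 n then false else G p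

theorem exists_indep : ∃ G : 𝒞, ∀ n, ¬ col G n ≤ₜ erase n G := by
  have h : ∀ n, ∀ᶠ G in residual 𝒞, ¬ col G n ≤ₜ erase n G := by
    intro n
    refine ev_not_le_of_flip (f := erase n) (h := fun G => col G n) ?_ (by fun_prop)
      fun N x => ⟨N, Function.update x (Nat.pair n N) (!x (Nat.pair n N)), fun i hi => ?_, ?_, ?_⟩
    · refine continuous_pi fun p => ?_
      unfold erase
      cases eqB p.unpair.1 n
      · exact continuous_apply p
      · exact continuous_const
    · have := Nat.right_le_pair n N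
      rw [Function.update_of_ne (by omega)]
    · funext p
      unfold erase
      cases e : eqB p.unpair.1 n
      · have : p ≠ Nat.pair n N := by
          rintro rfl
          simp [eqB] at e
        simp only [cond_false, Function.update_of_ne this]
      · rfl
    · simp [col]
  exact (freq_of_ev (eventually_countable_forall.2 h)).exists

theorem exists_oracle {α : Type*} [Primcodable α] (φ : α → List Bool) : ∃ c : 𝒞, CI (orc c) φ := by
  classical
  set c : 𝒞 := fun k => decide (∃ a, encode a = k.unpair.1 ∧ encode (φ a) = k.unpair.2) with hc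
  have hex : ∀ a, ∃ m, c (Nat.pair (encode a) m) = true := fun a =>
    ⟨encode (φ a), by simp [hc]⟩
  have h0 := tr_refl c
  have h1 : CI (orc c) fun a => Nat.find (hex a) :=
    CI.find (p := fun a m => c (Nat.pair (encode a) m)) (by fun_prop) hex
  have h2 : CI (orc c) fun a => (decode (α := List Bool) (Nat.find (hex a))).getD [] :=
    CI.comp (f := fun m => (decode (α := List Bool) m).getD []) (by fun_prop) h1
  refine ⟨c, h2.of_eq fun a => ?_⟩
  have h3 := Nat.find_spec (hex a)
  generalize Nat.find (hex a) = m at h3 ⊢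
  simp only [hc, Nat.unpair_pair, decide_eq_true_eq] at h3
  obtain ⟨a', e1, e2⟩ := h3
  obtain rfl := encode_injective e1
  rw [← e2, encodek, Option.getD_some]

/-- Merge a finite condition, decided columns and a free part. -/
def merge (G : 𝒞) (σ ζ : List Bool) (r : 𝒞) (p : ℕ) : Bool :=
  bif ltN p σ.length then ext σ p else
    bif ltN p.unpair.1 ζ.length then ext ζ p.unpair.1 && G p else r p

theorem ltN_false {a b : ℕ} (h : ¬ a < b) : ltN a b = false := by
  rw [← Bool.not_eq_true]; simpa using h

/-- Coding of sets by an independent sequence. -/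
theorem exists_coding : ∃ (g : ℕ → 𝒞) (c : 𝒞), ∀ Z : 𝒞, ∃ G : 𝒞, G ≤ₜ jn Z c ∧
    ∀ n, (g n ≤ₜ G ↔ Z n = true) := by
  obtain ⟨G0, hG0⟩ := exists_indep
  obtain ⟨E, hE⟩ := exists_surjective_nat PR
  have hnext : ∀ q : List Bool × List Bool, ∃ τ : List Bool,
      (∃ r l, q.1.length < l ∧ τ = pre (merge G0 q.1 q.2 r) l) ∧
      (¬ Pfx ((E (q.2.length - 1).unpair.1).1 τ) (col G0 (q.2.length - 1).unpair.2) ∨
        ∀ r l, q.1.length < l → Pfx ((E (q.2.length - 1).unpair.1).1 (pre (merge G0 q.1 q.2 r) l))
          (col G0 (q.2.length - 1).unpair.2)) := by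
    intro q
    by_cases h : ∀ r l, q.1.length < l → Pfx ((E (q.2.length - 1).unpair.1).1
        (pre (merge G0 q.1 q.2 r) l)) (col G0 (q.2.length - 1).unpair.2)
    · exact ⟨_, ⟨fun _ => false, q.1.length + 1, by omega, rfl⟩, Or.inr h⟩
    · push Not at h
      obtain ⟨r, l, h1, h2⟩ := h
      exact ⟨_, ⟨r, l, h1, rfl⟩, Or.inl h2⟩
  choose next hn1 hn2 using hnext
  obtain ⟨c, hc⟩ := exists_oracle next
  refine ⟨col G0, c, fun Z => ?_⟩
  set σ : ℕ → List Bool := fun s => iter [] (fun k τ => next (τ, pre Z (k + 1))) s with hσ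
  have σs : ∀ s, σ (s + 1) = next (σ s, pre Z (s + 1)) := fun s => rfl
  have hσc : CI (orc (jn Z c)) σ := by
    have h1 : CI (orc (jn Z c)) next := hc.trans (le_jn_right Z c)
    have h2 := le_jn_left Z c
    simp only [hσ]
    fun_prop
  have hstep : ∀ s, ∃ r l, (σ s).length < l ∧ σ (s + 1) = pre (merge G0 (σ s) (pre Z (s + 1)) r) l :=
    fun s => hn1 (σ s, pre Z (s + 1))
  have hlt : ∀ s, (σ s).length < (σ (s + 1)).length := by
    intro s
    obtain ⟨r, l, h1, h2⟩ := hstep s
    rw [h2, length_pre]
    exact h1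
  have hmono : StrictMono fun s => (σ s).length := strictMono_nat_of_lt_succ hlt
  have hge : ∀ s, s ≤ (σ s).length := fun s => hmono.id_le s
  have hext : ∀ s t, s ≤ t → ∀ p < (σ s).length, ext (σ t) p = ext (σ s) p := by
    intro s t hst p hp
    induction t, hst using Nat.le_induction with
    | base => rfl
    | succ t hst ih =>
      obtain ⟨r, l, h1, h2⟩ := hstep t
      have h3 : (σ s).length ≤ (σ t).length := hmono.monotone hst
      rw [h2, ext_pre _ (by omega), merge, ltN_iff.2 (by omega), cond_true, ih]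
  set G : 𝒞 := fun p => ext (σ (p + 1)) p with hG
  have hpfx : ∀ s, Pfx (σ s) G := by
    intro s p hp
    have := hge (p + 1)
    simp only [hG]
    rw [← hext s (max s (p + 1)) (by omega) p hp, ← hext (p + 1) (max s (p + 1)) (by omega) p
      (by omega)]
  have hbase : ∀ s p, (σ s).length ≤ p → p.unpair.1 ≤ s → G p = (Z p.unpair.1 && G0 p) := by
    intro s p h1 h2
    have hex : ∃ t, p < (σ (s + t + 1)).length := ⟨p, by have := hge (s + p + 1); omega⟩
    classical
    have h3 := Nat.find_spec hex
    have h4 : (σ (s + Nat.find hex)).length ≤ p := by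
      rcases Nat.eq_zero_or_pos (Nat.find hex) with h | h
      · rw [h]; exact h1
      · have := Nat.find_min hex (show Nat.find hex - 1 < Nat.find hex by omega)
        rw [show s + (Nat.find hex - 1) + 1 = s + Nat.find hex by omega] at this
        omega
    set t := s + Nat.find hex
    rw [← hpfx (t + 1) p h3]
    obtain ⟨r, l, h5, h6⟩ := hstep t
    rw [h6, length_pre] at h3
    rw [h6, ext_pre _ h3, merge, ltN_false (by omega), cond_false, length_pre,
      ltN_iff.2 (by omega), cond_true, ext_pre _ (by omega)]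
  refine ⟨G, ?_, fun n => ⟨fun h => ?_, fun h => ?_⟩⟩
  · simp only [hG]
    fun_prop
  · by_contra hZ
    rw [Bool.not_eq_true] at hZ
    obtain ⟨Γ, hΓ⟩ := tr_iff.1 h
    obtain ⟨e, rfl⟩ := hE Γ
    set s := Nat.pair e n with hs
    have hns : n ≤ s := Nat.right_le_pair e n
    have h2 := hn2 (σ s, pre Z (s + 1))
    simp only [length_pre, Nat.add_sub_cancel, hs, Nat.unpair_pair] at h2
    rw [← hs, ← σs] at h2
    rcases h2 with h2 | h2
    · rw [(hpfx (s + 1)).eq_pre] at h2
      exact h2 (hΓ.1 _)
    · apply hG0 n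
      have hm : ∀ r, merge G0 (σ s) (pre Z (s + 1)) r =
          merge (erase n G0) (σ s) (pre Z (s + 1)) r := by
        intro r
        funext p
        unfold merge erase
        cases e' : eqB p.unpair.1 n
        · rfl
        · rw [eqB_iff.1 e', ext_pre Z (show n < s + 1 by omega), hZ]
          rfl
      have hy := tr_refl (erase n G0)
      have hΓ' := (E e).2
      refine tr_of_search (ψ := fun τ : List Bool => bif ltN (σ s).length τ.length then
        (E e).1 (pre (merge (erase n G0) (σ s) (pre Z (s + 1)) (ext τ)) τ.length) else [])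
        ?_ (fun τ => ?_) fun m => ?_
      · unfold merge
        generalize erase n G0 = y at hy ⊢
        fun_prop
      · by_cases hl : (σ s).length < τ.length
        · rw [ltN_iff.2 hl, cond_true, ← hm]
          exact h2 _ _ hl
        · rw [ltN_false hl, cond_false]
          exact pfx_nil _
      · obtain ⟨l0, hl0⟩ := hΓ.2 (m + 1)
        set l := max l0 ((σ s).length + 1)
        refine ⟨pre G l, ?_⟩
        have e' : pre (merge G0 (σ s) (pre Z (s + 1)) (ext (pre G l))) l = pre G l := by
          refine pre_congr fun p hp => ?_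
          unfold merge
          by_cases h1 : p < (σ s).length
          · rw [ltN_iff.2 h1, cond_true, hpfx s p h1]
          · rw [ltN_false h1, cond_false, length_pre]
            by_cases h3 : p.unpair.1 < s + 1
            · rw [ltN_iff.2 h3, cond_true, ext_pre _ h3, hbase s p (by omega) (by omega)]
            · rw [ltN_false h3, cond_false, ext_pre _ hp]
        rw [length_pre, ltN_iff.2 (by omega), cond_true, ← hm, e']
        exact hl0 l (by omega)
  · refine tr_trans (le_of_eventually_eq (N := (σ n).length) fun j hj => ?_) (col_le G n)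
    have := Nat.right_le_pair n j
    simp only [col]
    rw [hbase n (Nat.pair n j) (by omega) (by simp), Nat.unpair_pair, h, Bool.true_and]

/-- `c` is the infimum of `a` and `b`. -/
def Inf (a b c : 𝒞) : Prop := c ≤ₜ a ∧ c ≤ₜ b ∧ ∀ Γ : PR, Phi Γ b ≤ₜ a → Phi Γ b ≤ₜ c

theorem Inf.le {a b c d : 𝒞} (h : Inf a b c) (ha : d ≤ₜ a) (hb : d ≤ₜ b) : d ≤ₜ c := by
  obtain ⟨Γ, rfl⟩ := exists_phi hb
  exact h.2.2 Γ ha

theorem Inf.mk' {a b c : 𝒞} (ha : c ≤ₜ a) (hb : c ≤ₜ b) (h : ∀ d : 𝒞, d ≤ₜ a → d ≤ₜ b → d ≤ₜ c) :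
    Inf a b c := ⟨ha, hb, fun Γ h' => h _ h' (phi_le Γ b)⟩

theorem measurable_inf {Z : Type*} [MeasurableSpace Z] {a b c : Z → 𝒞} (ha : Measurable a)
    (hb : Measurable b) (hc : Measurable c) : Measurable fun z => Inf (a z) (b z) (c z) :=
  (measurable_tr hc ha).and ((measurable_tr hc hb).and (Measurable.forall fun Γ =>
    (measurable_tr (measurable_phi' Γ hb) ha).imp (measurable_tr (measurable_phi' Γ hb) hc)))

/-- Encryption of the sequence `x` by the pads `r`. -/
def enc (x r : ℕ → 𝒞) : 𝒞 := cols fun i => xr (x i) (r i)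

/-- One-time pads. -/
theorem ev_pad (x : ℕ → 𝒞) :
    ∀ᶠ r in residual (ℕ → 𝒞), ∀ n, Inf (jn (r n) (enc x r)) (cols x) (x n) := by
  have hc : Continuous (enc x) := by
    unfold enc
    exact continuous_cols fun i => by fun_prop
  have ho : IsOpenMap (enc x) := by
    refine IsOpenMap.of_inverse (f' := fun G i => xr (col G i) (x i)) (by fun_prop)
      (fun G => ?_) fun r => ?_
    · simp [enc]
    · funext i
      simp [enc]
  have key : ∀ n (Γ : PR), ∀ᶠ r in residual (ℕ → 𝒞),
      Phi Γ (cols x) ≤ₜ jn (r n) (enc x r) → Phi Γ (cols x) ≤ₜ x n := by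
    intro n Γ
    by_cases h : Phi Γ (cols x) ≤ₜ x n
    · exact Eventually.of_forall fun _ _ => h
    · filter_upwards [ev_pull hc ho (ev_not_le h)] with r hr h'
      refine (hr (tr_trans h' (jn_le ?_ (le_jn_right _ _)))).elim
      have e : r n = xr (col (enc x r) n) (x n) := by simp [enc]
      rw [e]
      exact xr_le (tr_trans (col_le _ _) (le_jn_right _ _)) (le_jn_left _ _)
  filter_upwards [eventually_countable_forall.2 fun n => eventually_countable_forall.2 (key n)]
    with r hr n
  refine ⟨?_, le_cols x n, hr n⟩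
  have e : x n = xr (col (enc x r) n) (r n) := by simp [enc]
  rw [e]
  exact xr_le (tr_trans (col_le _ _) (le_jn_right _ _)) (le_jn_left _ _)

end Crest.Agent.R292
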