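import Crest.Agent.R292.Decode

/-! Row 292: an invariant Borel family of automorphisms of generic ideals is trivial. -/

set_option autoImplicit false

open Filter Function Crest.Agent.Lib.Computability

namespace Crest.Agent.R292

/-- Turing ideals. -/
structure IsIdeal (J : Set 𝒞) : Prop where
  down : ∀ x ∈ J, ∀ y : 𝒞, y ≤ₜ x → y ∈ J
  join : ∀ x ∈ J, ∀ y ∈ J, jn x y ∈ J

/-- The relation `ρ` presents an automorphism of the degrees of members of `J`. -/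
structure IsAut (J : Set 𝒞) (ρ : 𝒞 → 𝒞 → Prop) : Prop where
  tot : ∀ x ∈ J, ∃ y ∈ J, ρ x y
  sur : ∀ y ∈ J, ∃ x ∈ J, ρ x y
  ord : ∀ x ∈ J, ∀ y ∈ J, ∀ x' ∈ J, ∀ y' ∈ J, ρ x y → ρ x' y' → (x ≤ₜ x' ↔ y ≤ₜ y')

theorem IsAut.flip {J : Set 𝒞} {ρ : 𝒞 → 𝒞 → Prop} (h : IsAut J ρ) : IsAut J (flip ρ) :=
  ⟨h.sur, h.tot, fun x hx y hy x' hx' y' hy' h1 h2 => (h.ord y hy x hx y' hy' x' hx' h1 h2).symm⟩

theorem IsIdeal.xr {J : Set 𝒞} (h : IsIdeal J) {x y : 𝒞} (hx : x ∈ J) (hy : y ∈ J) : xr x y ∈ J :=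
  h.down _ (h.join x hx y hy) _ (xr_le (le_jn_left _ _) (le_jn_right _ _))

theorem IsIdeal.sh {J : Set 𝒞} (h : IsIdeal J) {x : 𝒞} (hx : x ∈ J) : sh x ∈ J :=
  h.down _ hx _ (sh_le (tr_refl _))

theorem exists_cyl2 {U : Set (ℕ → 𝒞)} (hU : IsOpen U) {x : ℕ → 𝒞} (hx : x ∈ U) :
    ∃ N, ∀ z : ℕ → 𝒞, (∀ k < N, ∀ n < N, z k n = x k n) → z ∈ U := by
  obtain ⟨I, u, h1, h2⟩ := isOpen_pi_iff.1 hU x hx
  have h3 : ∀ i, ∃ M, i ∈ I → ∀ y : 𝒞, (∀ n < M, y n = x i n) → y ∈ u i := by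
    intro i
    by_cases hi : i ∈ I
    · obtain ⟨M, hM⟩ := exists_cyl_subset (h1 i hi).1 (h1 i hi).2
      exact ⟨M, fun _ => hM⟩
    · exact ⟨0, fun h => (hi h).elim⟩
  choose M hM using h3
  refine ⟨max (I.sup id + 1) (I.sup M), fun z hz => h2 fun i hi => hM i hi _ fun n hn => ?_⟩
  have e1 : i ≤ I.sup id := Finset.le_sup (f := id) hi
  have e2 : M i ≤ I.sup M := Finset.le_sup hi
  exact hz i (by omega) n (by omega)

theorem isOpenMap_sh : IsOpenMap sh := by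
  refine isOpenMap_of_cyl fun z U hU => ?_
  obtain ⟨V, hVU, hV, hz⟩ := mem_nhds_iff.1 hU
  obtain ⟨M, hM⟩ := exists_cyl_subset hV hz
  refine ⟨M + 1, fun y hy => ⟨fun n => y (n + 1), hVU (hM _ fun n hn => ?_), ?_⟩⟩
  · rw [hy _ (by omega), sh_succ]
  · funext n
    cases n with
    | zero => rw [hy 0 (by omega), sh_zero, sh_zero]
    | succ n => rw [sh_succ]

theorem piMap_open {N : ℕ} {f : ℕ → 𝒞 → 𝒞} (hc : ∀ k, Continuous (f k)) (ho : ∀ k, IsOpenMap (f k)) :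
    Continuous (fun (z : ℕ → 𝒞) k => if k < N then f k (z k) else z k) ∧
      IsOpenMap fun (z : ℕ → 𝒞) k => if k < N then f k (z k) else z k := by
  have e : (fun (z : ℕ → 𝒞) k => if k < N then f k (z k) else z k) =
      Pi.map fun k => if k < N then f k else id := by
    funext z k
    simp only [Pi.map_apply]
    split_ifs <;> rfl
  rw [e]
  refine ⟨Continuous.piMap fun k => ?_, IsOpenMap.piMap (fun k => ?_) ?_⟩
  · split_ifs
    · exact hc k
    · exact continuous_id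
  · split_ifs
    · exact ho k
    · exact IsOpenMap.id
  · rw [Nat.cofinite_eq_atTop]
    filter_upwards [eventually_ge_atTop N] with k hk
    rw [if_neg (by omega)]
    exact surjective_id

theorem homog {ι : Type} [Countable ι] {J : (ℕ → 𝒞) → Set 𝒞} {ρ : (ℕ → 𝒞) → 𝒞 → 𝒞 → Prop}
    {Good : (ℕ → 𝒞) → Prop} {f f' : ι → 𝒞 → 𝒞} {a b : 𝒞}
    (hJ : ∀ z, IsIdeal (J z)) (hz : ∀ z n, z n ∈ J z)
    (hsub : ∀ z z', (∀ n, z' n ∈ J z) → J z' ⊆ J z) (hρ : ∀ z z', J z = J z' → ρ z = ρ z')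
    (ha : ∀ z, a ∈ J z) (hb : ∀ z, b ∈ J z) (hf : ∀ m, Measurable (f m))
    (hfJ : ∀ z m, ∀ x ∈ J z, f m x ∈ J z)
    (hG : ∀ z z', J z = J z' → Good z → Good z') (hA : ∀ z, Good z → IsAut (J z) (ρ z))
    (hab : ∀ z, Good z → ρ z b a)
    (hGf : ∀ z, Good z → ∀ x ∈ J z, ∀ y ∈ J z, ρ z x y → ∃ m, y = f m x)
    (hGf' : ∀ z, Good z → ∀ x ∈ J z, ∀ y ∈ J z, ρ z x y → ∃ m, x = f' m y)
    (hm : ∀ m, Measurable fun z => Good z ∧ ρ z (z 0) (f m (z 0)))
    (hfreq : ∃ᶠ z in residual (ℕ → 𝒞), Good z) : b ≤ₜ a := by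
  have hJeq : ∀ z z', (∀ n, z' n ∈ J z) → (∀ n, z n ∈ J z') → J z = J z' :=
    fun z z' h1 h2 => Set.Subset.antisymm (hsub _ _ h2) (hsub _ _ h1)
  obtain ⟨m, h1⟩ := freq_exists (p := fun m z => Good z ∧ ρ z (z 0) (f m (z 0)))
    (hfreq.mono fun z hg => by
      obtain ⟨y, hy, h⟩ := (hA z hg).tot _ (hz z 0)
      obtain ⟨m, rfl⟩ := hGf z hg _ (hz z 0) y hy h
      exact ⟨m, hg, h⟩)
  obtain ⟨U, hU, ⟨x, hx⟩, h2⟩ := exists_open_of_freq (hm m) h1
  obtain ⟨N, hN⟩ := exists_cyl2 hU hx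
  set h : 𝒞 → 𝒞 := ov (N + 1) (x 0) with hh
  set F : 𝒞 → 𝒞 := fun y => f m (h y) with hF
  have hFm : Measurable F := (hf m).comp (continuous_ov _ _).measurable
  set R : (ℕ → 𝒞) → 𝒞 → Prop := fun z y => Good z ∧ y ∈ J z ∧ ρ z (h y) (F y) with hR
  have hl : ∀ y, h y ≤ₜ y := fun y => ov_le _ _ _
  have lh : ∀ y, y ≤ₜ h y := fun y => le_ov _ _ _
  have Rinv : ∀ z z' y, J z = J z' → R z y → R z' y := fun z z' y e hr =>
    ⟨hG _ _ e hr.1, e ▸ hr.2.1, hρ _ _ e ▸ hr.2.2⟩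
  have hhJ : ∀ z y, R z y → h y ∈ J z := fun z y hr => (hJ z).down _ hr.2.1 _ (hl y)
  have hFJ : ∀ z y, R z y → F y ∈ J z := fun z y hr => hfJ z m _ (hhJ z y hr)
  have G0 : ∀ᶠ z in residual (ℕ → 𝒞), R z (z 0) := by
    obtain ⟨c1, c2⟩ := piMap_open (N := N + 1) (f := fun k => ov (N + 1) (x k))
      (fun k => continuous_ov _ _) fun k => isOpenMap_ov _ _
    filter_upwards [ev_pull c1 c2 h2] with z hz'
    have h3 := hz' (hN _ fun k hk n hn => by
      simp only [if_pos (show k < N + 1 by omega)]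
      exact ov_lt _ _ (by omega))
    have e : J (fun k => if k < N + 1 then ov (N + 1) (x k) (z k) else z k) = J z := by
      refine hJeq _ _ (fun n => (hJ _).down _ (hz _ n) _ ?_) fun n => (hJ _).down _ (hz _ n) _ ?_
      · split_ifs
        · exact le_ov _ _ _
        · exact tr_refl _
      · split_ifs
        · exact ov_le _ _ _
        · exact tr_refl _
    simp only [if_pos (show 0 < N + 1 by omega)] at h3
    exact ⟨hG _ _ e h3.1, hz z 0, hρ _ _ e ▸ h3.2⟩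
  have hom : ∀ (Θ : (ℕ → 𝒞) → ℕ → 𝒞) (L : (ℕ → 𝒞) → 𝒞), Continuous Θ → IsOpenMap Θ →
      (∀ z n, Θ z n ∈ J z) → (∀ z n, z n ∈ J (Θ z)) → (∀ᶠ z in residual (ℕ → 𝒞), R z (L z)) →
      ∀ᶠ z in residual (ℕ → 𝒞), R z (L (Θ z)) := by
    intro Θ L c1 c2 h3 h4 h5
    filter_upwards [ev_pull c1 c2 h5] with z hz'
    exact Rinv _ _ _ (hJeq _ _ (h4 z) (h3 z)) hz'
  have Gc : ∀ c, ∀ᶠ z in residual (ℕ → 𝒞), R z (z c) := by
    intro c
    have c1 : Continuous fun (z : ℕ → 𝒞) k => z (Equiv.swap 0 c k) := by fun_prop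
    have i1 : ∀ z : ℕ → 𝒞, (fun k => (fun k => z (Equiv.swap 0 c k)) (Equiv.swap 0 c k)) = z :=
      fun z => by simp
    have := hom (fun z k => z (Equiv.swap 0 c k)) (fun z => z 0) c1
      (IsOpenMap.of_inverse c1 i1 i1) (fun z n => hz z _) (fun z n => by
        simpa using hz (fun k => z (Equiv.swap 0 c k)) (Equiv.swap 0 c n)) G0
    simpa using this
  have homU : ∀ (c : ℕ) (M L : (ℕ → 𝒞) → 𝒞), Continuous M → (∀ z, Tri fun y => M (update z c y)) →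
      (∀ z, M z ∈ J z) → (∀ z, z c ∈ J (update z c (M z))) →
      (∀ᶠ z in residual (ℕ → 𝒞), R z (L z)) →
      ∀ᶠ z in residual (ℕ → 𝒞), R z (L (update z c (M z))) := by
    intro c M L c1 t1 h3 h4 h5
    obtain ⟨c2, c3⟩ := tri_open c1 t1
    refine hom _ L c2 c3 (fun z n => ?_) (fun z n => ?_) h5
    · by_cases hn : n = c
      · subst hn; simpa using h3 z
      · simpa [update_of_ne hn] using hz z n
    · by_cases hn : n = c
      · subst hn; exact h4 z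
      · simpa [update_of_ne hn] using hz (update z c (M z)) n
  have Gsh : ∀ᶠ z in residual (ℕ → 𝒞), R z (sh (z 0)) := by
    obtain ⟨c1, c2⟩ := piMap_open (N := 1) (f := fun _ => sh)
      (fun _ => continuous_sh continuous_id) fun _ => isOpenMap_sh
    have := hom _ (fun z => z 0) c1 c2 (fun z n => ?_) (fun z n => (hJ _).down _ (hz _ n) _ ?_) G0
    · simpa using this
    · split_ifs
      · exact (hJ z).sh (hz z n)
      · exact hz z n
    · split_ifs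
      · exact le_sh _
      · exact tr_refl _
  have Gx : ∀ᶠ z in residual (ℕ → 𝒞), R z (xr (z 1) (sh (z 0))) := by
    have := homU 1 (fun z => xr (z 1) (sh (z 0))) (fun z => z 1) (by fun_prop)
      (fun z y y' j _ => by simp [xr]) (fun z => (hJ z).xr (hz z 1) ((hJ z).sh (hz z 0)))
      (fun z => ?_) (Gc 1)
    · simpa using this
    · have := (hJ _).xr (hz (update z 1 (xr (z 1) (sh (z 0)))) 1)
        ((hJ _).sh (hz (update z 1 (xr (z 1) (sh (z 0)))) 0))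
      simpa using this
  have Gs : ∀ᶠ z in residual (ℕ → 𝒞), R z (sh (xr (z 0) (z 1))) := by
    have := homU 0 (fun z => xr (z 0) (z 1)) (fun z => sh (z 0)) (by fun_prop)
      (fun z y y' j _ => by simp [xr]) (fun z => (hJ z).xr (hz z 0) (hz z 1))
      (fun z => ?_) Gsh
    · simpa using this
    · have := (hJ _).xr (hz (update z 0 (xr (z 0) (z 1))) 0) (hz (update z 0 (xr (z 0) (z 1))) 1)
      simpa using this
  have Rle : ∀ z y y1 y2, R z y → R z y1 → R z y2 → y ≤ₜ jn y1 y2 → F y ≤ₜ jn (F y1) (F y2) := by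
    intro z y y1 y2 r r1 r2 hy
    have A := hA z r.1
    have hs' := (hJ z).join _ (hFJ _ _ r1) _ (hFJ _ _ r2)
    obtain ⟨s, hs, hss⟩ := A.sur _ hs'
    have k1 := (A.ord _ (hhJ _ _ r1) _ (hFJ _ _ r1) _ hs _ hs' r1.2.2 hss).2 (le_jn_left _ _)
    have k2 := (A.ord _ (hhJ _ _ r2) _ (hFJ _ _ r2) _ hs _ hs' r2.2.2 hss).2 (le_jn_right _ _)
    exact (A.ord _ (hhJ _ _ r) _ (hFJ _ _ r) _ hs _ hs' r.2.2 hss).1
      (tr_trans (hl y) (tr_trans hy (jn_le (tr_trans (lh _) k1) (tr_trans (lh _) k2))))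
  have c01 : Continuous fun z : ℕ → 𝒞 => (z 0, z 1) := by fun_prop
  have R1 : ∀ᶠ p in residual (𝒞 × 𝒞), F (sh p.1) ≤ₜ jn (F (xr p.2 (sh p.1))) (F p.2) := by
    refine ev_push c01 (proj2_open (by omega)) (proj2_surj (by omega))
      (measurable_tr (by fun_prop) (by fun_prop)) ?_
    filter_upwards [Gsh, Gx, Gc 1] with z r r1 r2
    refine Rle z _ _ _ r r1 r2 ?_
    have := xr_le (le_jn_left (xr (z 1) (sh (z 0))) (z 1)) (le_jn_right _ _)
    simpa using this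
  have R2 : ∀ᶠ p in residual (𝒞 × 𝒞), F p.1 ≤ₜ jn (F (sh (xr p.1 p.2))) (F p.2) := by
    refine ev_push c01 (proj2_open (by omega)) (proj2_surj (by omega))
      (measurable_tr (by fun_prop) (by fun_prop)) ?_
    filter_upwards [G0, Gs, Gc 1] with z r r1 r2
    refine Rle z _ _ _ r r1 r2 ?_
    have := xr_le (tr_trans (le_sh _) (le_jn_left (sh (xr (z 0) (z 1))) (z 1))) (le_jn_right _ _)
    simpa using this
  have R3 : ∀ r, ∀ᶠ y in residual 𝒞, F y ≠ r := by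
    intro r
    refine ev_push (f := fun z : ℕ → 𝒞 => z 0) (continuous_apply 0) (isOpenMap_eval 0)
      (fun y => ⟨fun _ => y, rfl⟩) (measurable_eq hFm measurable_const).not ?_
    filter_upwards [G0, ev_pull (continuous_apply 0) (isOpenMap_eval 0)
      (eventually_countable_forall.2 fun m' => ev_not_le' (f' m' r))] with z r0 hz' e
    obtain ⟨m', hm'⟩ := hGf' z r0.1 _ (hhJ _ _ r0) _ (hFJ _ _ r0) r0.2.2
    rw [e] at hm'
    exact hz' m' (hm' ▸ lh (z 0))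
  obtain ⟨i, hi, hdec⟩ := decode hFm R1 R2 R3 a
  have hiJ : ∀ z, i ∈ J z := fun z => (hJ z).down _ (ha z) _ hi
  have four : ∀ z : ℕ → 𝒞, ∃ u ∈ J z, i ≤ₜ u ∧ z 0 ≤ₜ u ∧ z 1 ≤ₜ u ∧ z 2 ≤ₜ u := fun z =>
    ⟨jn i (jn (z 0) (jn (z 1) (z 2))),
      (hJ z).join _ (hiJ z) _ ((hJ z).join _ (hz z 0) _ ((hJ z).join _ (hz z 1) _ (hz z 2))),
      le_jn_left _ _, tr_trans (le_jn_left _ _) (le_jn_right _ _),
      tr_trans (le_jn_left _ _) (tr_trans (le_jn_right _ _) (le_jn_right _ _)),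
      tr_trans (le_jn_right _ _) (tr_trans (le_jn_right _ _) (le_jn_right _ _))⟩
  have GY : ∀ᶠ z in residual (ℕ → 𝒞), R z (Yz i z 0) := by
    have := homU (cb (i 0)) (fun z => Yz i z 0) (fun z => z (cb (i 0))) (continuous_Yz i 0)
      (tri_Yz i 0) (fun z => ?_) (fun z => ?_) (Gc _)
    · simpa using this
    · obtain ⟨u, hu, k0, k1, k2, k3⟩ := four z
      exact (hJ z).down _ hu _ (Yz_le k0 k1 k2 k3 0)
    · obtain ⟨u, hu, k0, k1, k2, k3⟩ := four (update z (cb (i 0)) (Yz i z 0))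
      refine (hJ _).down _ hu _ ((tri_Yz i 0 z).tr ?_ ?_)
      · have he : CI (orc u) fun p : List Bool × ℕ => ext p.1 p.2 := by fun_prop
        cases e : i 0
        · simp only [e, cb, cond_false, update_self, ne_eq, zero_ne_one, not_false_eq_true,
            update_of_ne, OfNat.ofNat_ne_one] at k1 k2 k3
          have := Yv_ci (v := fun _ : List Bool => z 0) (w0 := fun τ => ext τ)
            (w1 := fun _ => z 2) k0 (k1.comp CI.id.snd) he (k3.comp CI.id.snd) 0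
          simpa [Yz, cb] using this
        · simp only [e, cb, cond_true, update_self, ne_eq, OfNat.zero_ne_ofNat, not_false_eq_true,
            update_of_ne, OfNat.one_ne_ofNat] at k1 k2 k3
          have := Yv_ci (v := fun _ : List Bool => z 0) (w0 := fun _ => z 1)
            (w1 := fun τ => ext τ) k0 (k1.comp CI.id.snd) (k2.comp CI.id.snd) he 0
          simpa [Yz, cb] using this
      · simp only [update_eq_self]
        cases e : i 0
        · simpa [e, cb] using k2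
        · simpa [e, cb] using k3
  by_contra hba
  have cc : Continuous (cols : (ℕ → 𝒞) → 𝒞) := continuous_cols fun i => continuous_apply i
  have co : IsOpenMap (cols : (ℕ → 𝒞) → 𝒞) :=
    IsOpenMap.of_inverse (f' := col) (by fun_prop) cols_col fun z => funext (col_cols z)
  obtain ⟨z, k0, ⟨⟨⟨⟨r0, r1⟩, r2⟩, rY⟩, k1⟩⟩ := (hdec.and_eventually
    ((((G0.and (Gc 1)).and (Gc 2)).and GY).and (ev_pull cc co (ev_not_le hba)))).exists
  have A := hA z r0.1
  set s := jn a (jn (z 0) (jn (z 1) (z 2))) with hs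
  have hsJ : s ∈ J z :=
    (hJ z).join _ (ha z) _ ((hJ z).join _ (hz z 0) _ ((hJ z).join _ (hz z 1) _ (hz z 2)))
  obtain ⟨s', hs', hss⟩ := A.tot s hsJ
  have key : ∀ y, R z y → y ≤ₜ s → F y ≤ₜ s' := fun y r hy =>
    (A.ord _ (hhJ _ _ r) _ (hFJ _ _ r) _ hsJ _ hs' r.2.2 hss).1 (tr_trans (hl y) hy)
  have l0 : z 0 ≤ₜ s := tr_trans (le_jn_left _ _) (le_jn_right _ _)
  have l1 : z 1 ≤ₜ s := tr_trans (le_jn_left _ _) (tr_trans (le_jn_right _ _) (le_jn_right _ _))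
  have l2 : z 2 ≤ₜ s := tr_trans (le_jn_right _ _) (tr_trans (le_jn_right _ _) (le_jn_right _ _))
  have lY : Yz i z 0 ≤ₜ s := Yz_le (tr_trans hi (le_jn_left _ _)) l0 l1 l2 0
  have k2 : a ≤ₜ s' := tr_trans k0
    (jn_le (key _ rY lY) (jn_le (key _ r0 l0) (jn_le (key _ r1 l1) (key _ r2 l2))))
  have k3 : b ≤ₜ s := (A.ord _ (hb z) _ (ha z) _ hsJ _ hs' (hab z r0.1) hss).2 k2
  exact k1 (tr_trans k3 (jn_mono (tr_refl a)
    (jn_le (le_cols z 0) (jn_le (le_cols z 1) (le_cols z 2)))))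

end Crest.Agent.R292
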