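import Crest.Agent.R292.Proc

/-! Row 292: rigidity, relational form. -/

set_option autoImplicit false

open Filter Function TopologicalSpace Crest.Agent.Lib.Computability

namespace Crest.Agent.R292

/-- Terms generating the ideals. -/
inductive Tm
  | var (n : ℕ)
  | cst (n : ℕ) (b : Bool)
  | op (k : Fin 3) (Γ : PR) (t : Tm)
  | join (t t' : Tm)
  deriving Countable

instance : Nonempty Tm := ⟨.var 0⟩

/-- Evaluation of terms. -/
def ev (S : ℕ → Bool → 𝒞) (op : Fin 3 → PR → 𝒞 → 𝒞) (z : ℕ → 𝒞) : Tm → 𝒞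
  | .var n => z n
  | .cst n b => S n b
  | .op k Γ t => op k Γ (ev S op z t)
  | .join t t' => jn (ev S op z t) (ev S op z t')

section
variable {S : ℕ → Bool → 𝒞} {op : Fin 3 → PR → 𝒞 → 𝒞}

theorem measurable_ev_tm (hop : ∀ k Γ, Measurable (op k Γ)) (t : Tm) :
    Measurable fun z => ev S op z t := by
  induction t with
  | var n => exact measurable_pi_apply n
  | cst n b => exact measurable_const
  | op k Γ t ih => exact (hop k Γ).comp ih
  | join t t' ih ih' => exact measurable_jn ih ih'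

theorem ev_dep (t : Tm) : ∃ N, ∀ z z' : ℕ → 𝒞, (∀ n < N, z n = z' n) → ev S op z t = ev S op z' t := by
  induction t with
  | var n => exact ⟨n + 1, fun z z' h => h n (by omega)⟩
  | cst n b => exact ⟨0, fun _ _ _ => rfl⟩
  | op k Γ t ih =>
    obtain ⟨N, h⟩ := ih
    exact ⟨N, fun z z' hz => by simp only [ev, h z z' hz]⟩
  | join t t' ih ih' =>
    obtain ⟨N, h⟩ := ih
    obtain ⟨N', h'⟩ := ih'
    exact ⟨max N N', fun z z' hz => by
      simp only [ev, h z z' fun n hn => hz n (by omega), h' z z' fun n hn => hz n (by omega)]⟩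

theorem range_ev_subset {z z' : ℕ → 𝒞} (h : ∀ n, z' n ∈ Set.range (ev S op z)) :
    Set.range (ev S op z') ⊆ Set.range (ev S op z) := by
  rintro _ ⟨t, rfl⟩
  induction t with
  | var n => exact h n
  | cst n b => exact ⟨.cst n b, rfl⟩
  | op k Γ t ih =>
    obtain ⟨t', h'⟩ := ih
    exact ⟨.op k Γ t', by simp only [ev, h']⟩
  | join t t' ih ih' =>
    obtain ⟨t1, h1⟩ := ih
    obtain ⟨t2, h2⟩ := ih'
    exact ⟨.join t1 t2, by simp only [ev, h1, h2]⟩

theorem op_mem {z : ℕ → 𝒞} (k : Fin 3) (Γ : PR) {x : 𝒞} (h : x ∈ Set.range (ev S op z)) :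
    op k Γ x ∈ Set.range (ev S op z) := by
  obtain ⟨t, rfl⟩ := h
  exact ⟨.op k Γ t, rfl⟩

theorem ideal_ev (h0 : op 0 = Phi) (z : ℕ → 𝒞) : IsIdeal (Set.range (ev S op z)) := by
  refine ⟨fun x hx y hy => ?_, ?_⟩
  · obtain ⟨Γ, rfl⟩ := exists_phi hy
    rw [← h0]
    exact op_mem 0 Γ hx
  · rintro _ ⟨t, rfl⟩ _ ⟨t', rfl⟩
    exact ⟨.join t t', rfl⟩

end

/-- Concatenation of a finite initial part and a sequence. -/
def app (N : ℕ) (p : (ℕ → 𝒞) × (ℕ → 𝒞)) (n : ℕ) : 𝒞 := if n < N then p.1 n else p.2 (n - N)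

theorem continuous_app (N : ℕ) : Continuous (app N) := by
  refine continuous_pi fun n => ?_
  unfold app
  split_ifs <;> fun_prop

theorem app_sec (N : ℕ) (x y : ℕ → 𝒞) : app N (ov N y x, fun n => y (n + N)) = y := by
  funext n
  unfold app
  split_ifs with h
  · exact ov_lt _ _ h
  · simp only
    rw [Nat.sub_add_cancel (by omega)]

theorem isOpenMap_app (N : ℕ) : IsOpenMap (app N) := by
  refine IsOpenMap.of_sections fun p => ⟨fun y => (ov N y p.1, fun n => y (n + N)), ?_, ?_,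
    fun y => app_sec N p.1 y⟩
  · refine Continuous.continuousAt (Continuous.prodMk (continuous_pi fun n => ?_) (by fun_prop))
    unfold ov
    split_ifs <;> fun_prop
  · refine Prod.ext (funext fun n => ?_) (funext fun n => ?_)
    · simp only [ov, app]
      split_ifs <;> rfl
    · simp [app]

/-- `ρ` is an automorphism of the range of `E` extending the given pairs. -/
def GoodE (S : ℕ → Bool → 𝒞) (E : ℕ → 𝒞) (ρ : 𝒞 → 𝒞 → Prop) : Prop :=
  (∀ i, ∃ j, ρ (E i) (E j)) ∧ (∀ j, ∃ i, ρ (E i) (E j)) ∧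
    (∀ i j i' j', ρ (E i) (E j) → ρ (E i') (E j') → (E i ≤ₜ E i' ↔ E j ≤ₜ E j')) ∧
    ∀ d, ρ (S d false) (S d true)

theorem goodE_iff {S : ℕ → Bool → 𝒞} {E : ℕ → 𝒞} {ρ : 𝒞 → 𝒞 → Prop} :
    GoodE S E ρ ↔ IsAut (Set.range E) ρ ∧ ∀ d, ρ (S d false) (S d true) := by
  constructor
  · rintro ⟨h1, h2, h3, h4⟩
    refine ⟨⟨?_, ?_, ?_⟩, h4⟩
    · rintro _ ⟨i, rfl⟩
      obtain ⟨j, hj⟩ := h1 i
      exact ⟨_, ⟨j, rfl⟩, hj⟩
    · rintro _ ⟨j, rfl⟩
      obtain ⟨i, hi⟩ := h2 j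
      exact ⟨_, ⟨i, rfl⟩, hi⟩
    · rintro _ ⟨i, rfl⟩ _ ⟨j, rfl⟩ _ ⟨i', rfl⟩ _ ⟨j', rfl⟩
      exact h3 i j i' j'
  · rintro ⟨A, h4⟩
    refine ⟨fun i => ?_, fun j => ?_, fun i j i' j' =>
      A.ord _ ⟨i, rfl⟩ _ ⟨j, rfl⟩ _ ⟨i', rfl⟩ _ ⟨j', rfl⟩, h4⟩
    · obtain ⟨_, ⟨j, rfl⟩, h⟩ := A.tot _ ⟨i, rfl⟩
      exact ⟨j, h⟩
    · obtain ⟨_, ⟨i, rfl⟩, h⟩ := A.sur _ ⟨j, rfl⟩
      exact ⟨i, h⟩

theorem measurable_goodE {Z : Type} [MeasurableSpace Z] (S : ℕ → Bool → 𝒞) {E : Z → ℕ → 𝒞}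
    (hE : ∀ n, Measurable fun z => E z n) {ρ : Z → 𝒞 → 𝒞 → Prop}
    (hρ : ∀ u v : Z → 𝒞, Measurable u → Measurable v → Measurable fun z => ρ z (u z) (v z)) :
    Measurable fun z => GoodE S (E z) (ρ z) :=
  (Measurable.forall fun i => Measurable.exists fun j => hρ _ _ (hE i) (hE j)).and
    ((Measurable.forall fun j => Measurable.exists fun i => hρ _ _ (hE i) (hE j)).and
    ((Measurable.forall fun i => Measurable.forall fun j => Measurable.forall fun i' =>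
      Measurable.forall fun j' => (hρ _ _ (hE i) (hE j)).imp ((hρ _ _ (hE i') (hE j')).imp
        ((measurable_tr (hE i) (hE i')).iff (measurable_tr (hE j) (hE j'))))).and
    (Measurable.forall fun _ => hρ _ _ measurable_const measurable_const)))

theorem rigid_rel {P : 𝒞 → 𝒞 → Prop} (hP : IsGA P) {a b : 𝒞} (hab : P b a) : b ≤ₜ a := by
  obtain ⟨g, c, hcode⟩ := exists_coding
  choose h hh using fun n => hP.sur (g n)
  choose h' hh' using fun n => hP.tot (g n)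
  obtain ⟨p, hp⟩ := hP.sur c
  obtain ⟨p', hp'⟩ := hP.tot c
  set S0 : Set (𝒞 × 𝒞) := (Set.range fun n => (h n, g n)) ∪ (Set.range fun n => (g n, h' n)) ∪
    {(p, c), (c, p'), (b, a)} with hS0
  have hS0c : S0.Countable :=
    ((Set.countable_range _).union (Set.countable_range _)).union (Set.toFinite _).countable
  obtain ⟨S1, hS1⟩ := hS0c.exists_eq_range ⟨(b, a), by simp [hS0]⟩
  set S : ℕ → Bool → 𝒞 := fun d β => bif β then (S1 d).2 else (S1 d).1 with hS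
  have hSP : ∀ d, P (S d false) (S d true) := by
    intro d
    have : S1 d ∈ S0 := hS1 ▸ ⟨d, rfl⟩
    simp only [hS, cond_true, cond_false]
    rcases this with (⟨n, e⟩ | ⟨n, e⟩) | e | e | e
    · rw [← e]; exact hh n
    · rw [← e]; exact hh' n
    · rw [e]; exact hp
    · rw [e]; exact hp'
    · rw [Set.mem_singleton_iff.1 e]; exact hab
  have hSd : ∀ q ∈ S0, ∃ d, S d false = q.1 ∧ S d true = q.2 := by
    intro q hq
    rw [hS1] at hq
    obtain ⟨d, rfl⟩ := hq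
    exact ⟨d, rfl, rfl⟩
  set op : Fin 3 → PR → 𝒞 → 𝒞 := ![Phi, fA h p, fA h' p'] with hop
  have mop : ∀ k Γ, Measurable (op k Γ) := by
    intro k Γ
    fin_cases k
    · exact measurable_phi Γ
    · exact measurable_fA h p Γ
    · exact measurable_fA h' p' Γ
  obtain ⟨e, he⟩ := exists_surjective_nat Tm
  set E : (ℕ → 𝒞) → ℕ → 𝒞 := fun z n => ev S op z (e n.unpair.1) with hE
  have rE : ∀ z, Set.range (E z) = Set.range (ev S op z) := by
    intro z
    refine Set.Subset.antisymm (by rintro _ ⟨n, rfl⟩; exact ⟨_, rfl⟩) ?_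
    rintro _ ⟨t, rfl⟩
    obtain ⟨n, rfl⟩ := he t
    exact ⟨Nat.pair n 0, by simp [hE]⟩
  have iE : ∀ z n, {j | E z j = E z n}.Infinite := by
    intro z n
    refine Set.infinite_of_injective_forall_mem (f := fun i => Nat.pair n.unpair.1 i)
      (fun i j hij => (Nat.pair_eq_pair.1 hij).2) fun i => ?_
    simp [hE]
  have mE : ∀ n, Measurable fun z => E z n := fun n => measurable_ev_tm mop _
  have hI : ∀ z, IsIdeal (Set.range (E z)) := fun z => rE z ▸ ideal_ev rfl z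
  have hSJ : ∀ z, ∀ q ∈ S0, q.1 ∈ Set.range (E z) ∧ q.2 ∈ Set.range (E z) := by
    intro z q hq
    obtain ⟨d, h1, h2⟩ := hSd q hq
    rw [rE]
    exact ⟨⟨.cst d false, h1⟩, ⟨.cst d true, h2⟩⟩
  have m1 : ∀ n, (h n, g n) ∈ S0 := fun n => Or.inl (Or.inl ⟨n, rfl⟩)
  have m2 : ∀ n, (g n, h' n) ∈ S0 := fun n => Or.inl (Or.inr ⟨n, rfl⟩)
  have m3 : (p, c) ∈ S0 := by simp [hS0]
  have m4 : (c, p') ∈ S0 := by simp [hS0]
  have m5 : (b, a) ∈ S0 := by simp [hS0]
  have bnd : ∀ (J : Set 𝒞) (ρ : 𝒞 → 𝒞 → Prop), IsIdeal J → IsAut J ρ →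
      (∀ q ∈ S0, q.1 ∈ J ∧ q.2 ∈ J) → (∀ d, ρ (S d false) (S d true)) →
      (∀ x ∈ J, ∀ y ∈ J, ρ x y → ∃ Γ, y = fA h p Γ x) ∧
      ∀ x ∈ J, ∀ y ∈ J, ρ x y → ∃ Γ, x = fA h' p' Γ y := by
    intro J ρ hJ A h1 h2
    have h3 : ∀ q ∈ S0, ρ q.1 q.2 := fun q hq => by
      obtain ⟨d, e1, e2⟩ := hSd q hq
      rw [← e1, ← e2]
      exact h2 d
    exact ⟨aut_bound hJ A hcode (fun n => (h1 _ (m1 n)).2) (fun n => (h1 _ (m1 n)).1) (h1 _ m3).2
      (h1 _ m3).1 (fun n => h3 _ (m1 n)) (h3 _ m3),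
      fun x hx y hy hxy => aut_bound hJ A.flip hcode (fun n => (h1 _ (m1 n)).2)
        (fun n => (h1 _ (m2 n)).2) (h1 _ m3).2 (h1 _ m4).2 (fun n => h3 _ (m2 n)) (h3 _ m4)
        y hy x hx hxy⟩
  obtain ⟨b1, b2⟩ := bnd Set.univ P ⟨fun _ _ _ _ => trivial, fun _ _ _ _ => trivial⟩ hP.aut
    (fun _ _ => ⟨trivial, trivial⟩) hSP
  have hfJ : ∀ z Γ, ∀ x ∈ Set.range (E z), fA h p Γ x ∈ Set.range (E z) := by
    intro z Γ x hx
    rw [rE] at hx ⊢
    exact op_mem 1 Γ hx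
  have hfJ' : ∀ z Γ, ∀ x ∈ Set.range (E z), fA h' p' Γ x ∈ Set.range (E z) := by
    intro z Γ x hx
    rw [rE] at hx ⊢
    exact op_mem 2 Γ hx
  have hPf : ∀ x, ∃ Γ, P x (fA h p Γ x) := by
    intro x
    obtain ⟨y, hy⟩ := hP.tot x
    obtain ⟨Γ, rfl⟩ := b1 x trivial y trivial hy
    exact ⟨Γ, hy⟩
  have : Countable (countableBasis 𝒦) := (countable_countableBasis 𝒦).to_subtype
  set GX : List ℕ × countableBasis 𝒦 × (Fin 8 → PR) → (ℕ → 𝒞) → Prop := fun i x =>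
    GoodE S (E x) (Def (fA h p) (E x) i.1.length (fun n => E x (i.1.getD n 0)) i.2.1.1 i.2.2)
    with hGX
  have h1 : ∀ x, ∃ i, GX i x := by
    intro x
    obtain ⟨t, V, m, hd⟩ := exists_def hP (measurable_fA h p) hPf (E x)
    refine ⟨(t, V, m), goodE_iff.2 ⟨⟨fun u hu => ?_, fun v hv => ?_,
      fun u hu v hv u' hu' v' hv' k1 k2 => hP.ord ((hd _ hu _ hv).1 k1) ((hd _ hu' _ hv').1 k2)⟩,
      fun d => ?_⟩⟩
    · obtain ⟨Γ, hΓ⟩ := hPf u
      exact ⟨_, hfJ x Γ u hu, (hd _ hu _ (hfJ x Γ u hu)).2 hΓ⟩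
    · obtain ⟨u, hu⟩ := hP.sur v
      obtain ⟨Γ, rfl⟩ := b2 u trivial v trivial hu
      exact ⟨_, hfJ' x Γ v hv, (hd _ (hfJ' x Γ v hv) _ hv).2 hu⟩
    · refine (hd _ ?_ _ ?_).2 (hSP d)
      · rw [rE]; exact ⟨.cst d false, rfl⟩
      · rw [rE]; exact ⟨.cst d true, rfl⟩
  obtain ⟨⟨t, V, m⟩, h2⟩ := freq_exists (freq_of_ev (Eventually.of_forall h1))
  have hVo := isOpen_of_mem_countableBasis V.2
  have mG : Measurable (GX (t, V, m)) := measurable_goodE S mE fun u v hu hv =>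
    measurable_def (measurable_fA h p) mE (fun n => mE _) _ hVo m hu hv
  obtain ⟨N, hN⟩ : ∃ N, ∀ z z' : ℕ → 𝒞, (∀ n < N, z n = z' n) →
      ∀ n < t.length, E z (t.getD n 0) = E z' (t.getD n 0) := by
    choose M hM using fun n => ev_dep (S := S) (op := op) (e (t.getD n 0).unpair.1)
    refine ⟨(Finset.range t.length).sup M, fun z z' hz n hn => hM n z z' fun k hk => hz k ?_⟩
    exact lt_of_lt_of_le hk (Finset.le_sup (f := M) (Finset.mem_range.2 hn))
  have h3 := freq_pull (continuous_app N) (isOpenMap_app N)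
    (fun y => ⟨_, app_sec N y y⟩) mG h2
  obtain ⟨w, h4⟩ := (ku_freq (mG.comp (continuous_app N).measurable) h3).exists
  set τ : ℕ → 𝒞 := fun n => E w (t.getD n 0) with hτ
  have ma : Measurable fun z => app N (w, z) :=
    (continuous_app N).measurable.comp measurable_prodMk_left
  have mE' : ∀ n, Measurable fun z => E (app N (w, z)) n := fun n => (mE n).comp ma
  have mρ : ∀ u v : (ℕ → 𝒞) → 𝒞, Measurable u → Measurable v → Measurable fun z =>
      Def (fA h p) (E (app N (w, z))) t.length τ V.1 m (u z) (v z) := fun u v hu hv =>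
    measurable_def (τ := fun _ => τ) (measurable_fA h p) mE' (fun _ => measurable_const) _ hVo m
      hu hv
  have hρ : ∀ z z', Set.range (E (app N (w, z))) = Set.range (E (app N (w, z'))) →
      Def (fA h p) (E (app N (w, z))) t.length τ V.1 m =
        Def (fA h p) (E (app N (w, z'))) t.length τ V.1 m :=
    fun z z' hz => Def.congr_range (iE _) (iE _) hz _ _ _ _
  refine homog (J := fun z => Set.range (E (app N (w, z))))
    (ρ := fun z => Def (fA h p) (E (app N (w, z))) t.length τ V.1 m)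
    (Good := fun z => GoodE S (E (app N (w, z))) (Def (fA h p) (E (app N (w, z))) t.length τ V.1 m))
    (f := fA h p) (f' := fA h' p') (fun z => hI _) (fun z n => ?_) (fun z z' hz => ?_) hρ
    (fun z => (hSJ _ _ m5).2) (fun z => (hSJ _ _ m5).1) (measurable_fA h p) (fun z => hfJ _)
    (fun z z' hz hg => ?_) (fun z hg => (goodE_iff.1 hg).1) (fun z hg => ?_)
    (fun z hg => (bnd _ _ (hI _) (goodE_iff.1 hg).1 (hSJ _) (goodE_iff.1 hg).2).1)
    (fun z hg => (bnd _ _ (hI _) (goodE_iff.1 hg).1 (hSJ _) (goodE_iff.1 hg).2).2)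
    (fun Γ => (measurable_goodE S mE' mρ).and (mρ _ _ (measurable_pi_apply 0)
      ((measurable_fA h p Γ).comp (measurable_pi_apply 0)))) (h4.mono fun z hz => ?_)
  · rw [rE]
    exact ⟨.var (n + N), by simp [ev, app]⟩
  · rw [rE, rE]
    refine range_ev_subset fun n => ?_
    by_cases hn : n < N
    · exact ⟨.var n, by simp [ev, app, hn]⟩
    · rw [← rE]
      simpa [app, hn] using hz (n - N)
  · rw [goodE_iff] at hg ⊢
    rw [← hρ z z' hz, ← hz]
    exact hg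
  · obtain ⟨d, e1, e2⟩ := hSd _ m5
    have := (goodE_iff.1 hg).2 d
    rwa [e1, e2] at this
  · simp only [hGX, comp_apply] at hz
    rwa [Def.congr_tau (τ' := τ) (hN _ _ fun n hn => by simp [app, hn])] at hz

end Crest.Agent.R292
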