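import Crest.Agent.R292.Homog

/-! Row 292: an automorphism restricted to a countable ideal is definable from the ideal. -/

set_option autoImplicit false

open Filter Function TopologicalSpace Crest.Agent.Lib.Computability

namespace Crest.Agent.R292

open Classical in
/-- The candidates for the image of `y`. -/
noncomputable def fA (h : ℕ → 𝒞) (p : 𝒞) (Γ : PR) (y : 𝒞) : 𝒞 :=
  fun n => decide (h n ≤ₜ Phi Γ (jn y p))

theorem measurable_fA (h : ℕ → 𝒞) (p : 𝒞) (Γ : PR) : Measurable (fA h p Γ) :=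
  measurable_decide fun _ => measurable_tr measurable_const (by fun_prop)

theorem aut_bound {J : Set 𝒞} {ρ : 𝒞 → 𝒞 → Prop} (hJ : IsIdeal J) (A : IsAut J ρ) {g h : ℕ → 𝒞}
    {c p : 𝒞} (hcode : ∀ Z : 𝒞, ∃ G : 𝒞, G ≤ₜ jn Z c ∧ ∀ n, (g n ≤ₜ G ↔ Z n = true))
    (hg : ∀ n, g n ∈ J) (hh : ∀ n, h n ∈ J) (hc : c ∈ J) (hp : p ∈ J) (h1 : ∀ n, ρ (h n) (g n))
    (h2 : ρ p c) : ∀ y ∈ J, ∀ Z ∈ J, ρ y Z → ∃ Γ, Z = fA h p Γ y := by
  intro y hy Z hZ hyZ
  obtain ⟨G, hG1, hG2⟩ := hcode Z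
  have hGJ : G ∈ J := hJ.down _ (hJ.join _ hZ _ hc) _ hG1
  obtain ⟨G', hG', hGG⟩ := A.sur G hGJ
  have hs := hJ.join _ hy _ hp
  obtain ⟨s', hs', hss⟩ := A.tot _ hs
  have k1 : Z ≤ₜ s' := (A.ord _ hy _ hZ _ hs _ hs' hyZ hss).1 (le_jn_left _ _)
  have k2 : c ≤ₜ s' := (A.ord _ hp _ hc _ hs _ hs' h2 hss).1 (le_jn_right _ _)
  have k3 : G' ≤ₜ jn y p := (A.ord _ hG' _ hGJ _ hs _ hs' hGG hss).2 (tr_trans hG1 (jn_le k1 k2))
  obtain ⟨Γ, hΓ⟩ := exists_phi k3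
  refine ⟨Γ, funext fun n => ?_⟩
  rw [Bool.eq_iff_iff]
  simp only [fA, decide_eq_true_iff, hΓ]
  rw [← hG2, A.ord _ (hh n) _ (hg n) _ hG' _ hGJ (h1 n) hGG]

/-- A global automorphism presented as a saturated relation. -/
structure IsGA (P : 𝒞 → 𝒞 → Prop) : Prop where
  tot : ∀ x, ∃ y, P x y
  sur : ∀ y, ∃ x, P x y
  ord : ∀ {x y x' y' : 𝒞}, P x y → P x' y' → (x ≤ₜ x' ↔ y ≤ₜ y')
  sat : ∀ {x y y' : 𝒞}, P x y → y ≤ₜ y' → y' ≤ₜ y → P x y'

section GA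
variable {P : 𝒞 → 𝒞 → Prop}

theorem IsGA.aut (h : IsGA P) : IsAut Set.univ P :=
  ⟨fun x _ => (h.tot x).imp fun _ hy => ⟨trivial, hy⟩,
    fun y _ => (h.sur y).imp fun _ hx => ⟨trivial, hx⟩, fun _ _ _ _ _ _ _ _ h1 h2 => h.ord h1 h2⟩

theorem IsGA.jn (h : IsGA P) {x x' s s' : 𝒞} (h1 : P x x') (h2 : P s s') :
    P (jn x s) (jn x' s') := by
  obtain ⟨j, hj⟩ := h.tot (R292.jn x s)
  obtain ⟨j', hj'⟩ := h.sur (R292.jn x' s')
  refine h.sat hj ((h.ord hj hj').1 (jn_le ((h.ord h1 hj').2 (le_jn_left _ _))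
    ((h.ord h2 hj').2 (le_jn_right _ _)))) (jn_le ((h.ord h1 hj).1 (le_jn_left _ _))
    ((h.ord h2 hj).1 (le_jn_right _ _)))

theorem IsGA.inf (h : IsGA P) {A A' k k' w : 𝒞} (h1 : P A A') (h2 : P k k') (h3 : Inf A k w)
    (u : 𝒞) : Inf A' k' u ↔ P w u := by
  have key : ∀ u, P w u → Inf A' k' u := by
    intro u hu
    refine Inf.mk' ((h.ord hu h1).1 h3.1) ((h.ord hu h2).1 h3.2.1) fun d d1 d2 => ?_
    obtain ⟨d', hd⟩ := h.sur d
    exact (h.ord hd hu).1 (h3.le ((h.ord hd h1).2 d1) ((h.ord hd h2).2 d2))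
  refine ⟨fun hu => ?_, key u⟩
  obtain ⟨u0, hu0⟩ := h.tot w
  have h4 := key u0 hu0
  exact h.sat hu0 (hu.le h4.1 h4.2.1) (h4.le hu.1 hu.2.1)

end GA

/-- The space of pads. -/
scoped notation "𝒦" => (ℕ → ℕ → Bool) × (ℕ → ℕ → Bool)

instance : BorelSpace ((ℕ → ℕ) × 𝒦) := Prod.borelSpace

/-- The coding parameters. -/
def par (y : ℕ → 𝒞) (κ : 𝒦) : Fin 8 → 𝒞 :=
  ![κ.1 0, enc κ.2 κ.1, cols κ.2, enc (fun n => κ.1 (n + 1)) κ.2, cols fun n => κ.1 (n + 1),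
    enc y κ.1, cols y, cols κ.1]

/-- Decoding of the keys. -/
def Key (q : Fin 8 → 𝒞) : ℕ → 𝒞 → Prop
  | 0, u => u ≤ₜ q 0 ∧ q 0 ≤ₜ u
  | n + 1, u => ∃ Γ Γ' : PR, Key q n (Phi Γ (q 7)) ∧
      Inf (jn (Phi Γ (q 7)) (q 1)) (q 2) (Phi Γ' (q 2)) ∧ Inf (jn (Phi Γ' (q 2)) (q 3)) (q 4) u

/-- Decoding of the values. -/
def Val (q : Fin 8 → 𝒞) (n : ℕ) (v : 𝒞) : Prop :=
  ∃ Γ : PR, Key q n (Phi Γ (q 7)) ∧ Inf (jn (Phi Γ (q 7)) (q 5)) (q 6) v

section Meas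
variable {Z : Type*} [MeasurableSpace Z]

theorem measurable_key {q : Z → Fin 8 → 𝒞} (hq : ∀ i, Measurable fun z => q z i) (n : ℕ)
    {u : Z → 𝒞} (hu : Measurable u) : Measurable fun z => Key (q z) n (u z) := by
  induction n generalizing u with
  | zero => exact (measurable_tr hu (hq 0)).and (measurable_tr (hq 0) hu)
  | succ n ih =>
    exact Measurable.exists fun Γ => Measurable.exists fun Γ' =>
      (ih (measurable_phi' Γ (hq 7))).and
        ((measurable_inf (measurable_jn (measurable_phi' Γ (hq 7)) (hq 1)) (hq 2)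
          (measurable_phi' Γ' (hq 2))).and
        (measurable_inf (measurable_jn (measurable_phi' Γ' (hq 2)) (hq 3)) (hq 4) hu))

theorem measurable_val {q : Z → Fin 8 → 𝒞} (hq : ∀ i, Measurable fun z => q z i) (n : ℕ)
    {u : Z → 𝒞} (hu : Measurable u) : Measurable fun z => Val (q z) n (u z) :=
  Measurable.exists fun Γ => (measurable_key hq n (measurable_phi' Γ (hq 7))).and
    (measurable_inf (measurable_jn (measurable_phi' Γ (hq 7)) (hq 5)) (hq 6) hu)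

theorem measurable_enc {x r : Z → ℕ → 𝒞} (hx : ∀ n, Measurable fun z => x z n)
    (hr : ∀ n, Measurable fun z => r z n) : Measurable fun z => enc (x z) (r z) :=
  measurable_cols fun n => measurable_xr (hx n) (hr n)

theorem measurable_par {y : Z → ℕ → 𝒞} (hy : ∀ n, Measurable fun z => y z n) {κ : Z → 𝒦}
    (hκ : Measurable κ) (i : Fin 8) : Measurable fun z => par (y z) (κ z) i := by
  have h1 : ∀ n, Measurable fun z => (κ z).1 n := fun n => by fun_prop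
  have h2 : ∀ n, Measurable fun z => (κ z).2 n := fun n => by fun_prop
  fin_cases i
  · exact h1 0
  · exact measurable_enc h2 h1
  · exact measurable_cols h2
  · exact measurable_enc (fun n => h1 (n + 1)) h2
  · exact measurable_cols fun n => h1 (n + 1)
  · exact measurable_enc hy h1
  · exact measurable_cols hy
  · exact measurable_cols h1

end Meas

theorem val_correct {P : 𝒞 → 𝒞 → Prop} (h : IsGA P) {y : ℕ → 𝒞} {κ : 𝒦} {q : Fin 8 → 𝒞}
    (h1 : ∀ n, Inf (jn (κ.1 n) (enc κ.2 κ.1)) (cols κ.2) (κ.2 n))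
    (h2 : ∀ n, Inf (jn (κ.2 n) (enc (fun n => κ.1 (n + 1)) κ.2)) (cols fun n => κ.1 (n + 1))
      (κ.1 (n + 1)))
    (h3 : ∀ n, Inf (jn (κ.1 n) (enc y κ.1)) (cols y) (y n)) (hq : ∀ i, P (par y κ i) (q i))
    (n : ℕ) (v : 𝒞) : Val q n v ↔ P (y n) v := by
  have q0 : P (κ.1 0) (q 0) := hq 0
  have q1 : P (enc κ.2 κ.1) (q 1) := hq 1
  have q2 : P (cols κ.2) (q 2) := hq 2
  have q3 : P (enc (fun n => κ.1 (n + 1)) κ.2) (q 3) := hq 3
  have q4 : P (cols fun n => κ.1 (n + 1)) (q 4) := hq 4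
  have q5 : P (enc y κ.1) (q 5) := hq 5
  have q6 : P (cols y) (q 6) := hq 6
  have q7 : P (cols κ.1) (q 7) := hq 7
  have e1 : ∀ n, ∃ Γ, P (κ.1 n) (Phi Γ (q 7)) := fun n => by
    obtain ⟨u, hu⟩ := h.tot (κ.1 n)
    obtain ⟨Γ, rfl⟩ := exists_phi ((h.ord hu q7).1 (le_cols _ n))
    exact ⟨Γ, hu⟩
  have e2 : ∀ n, ∃ Γ, P (κ.2 n) (Phi Γ (q 2)) := fun n => by
    obtain ⟨u, hu⟩ := h.tot (κ.2 n)
    obtain ⟨Γ, rfl⟩ := exists_phi ((h.ord hu q2).1 (le_cols _ n))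
    exact ⟨Γ, hu⟩
  have key : ∀ n u, Key q n u ↔ P (κ.1 n) u := by
    intro n
    induction n with
    | zero =>
      exact fun u => ⟨fun hu => h.sat q0 hu.2 hu.1,
        fun hu => ⟨(h.ord hu q0).1 (tr_refl _), (h.ord q0 hu).1 (tr_refl _)⟩⟩
    | succ n ih =>
      intro u
      constructor
      · rintro ⟨Γ, Γ', k1, k2, k3⟩
        have k4 := (h.inf (h.jn ((ih _).1 k1) q1) q2 (h1 n) _).1 k2
        exact (h.inf (h.jn k4 q3) q4 (h2 n) _).1 k3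
      · intro hu
        obtain ⟨Γ, k1⟩ := e1 n
        obtain ⟨Γ', k2⟩ := e2 n
        exact ⟨Γ, Γ', (ih _).2 k1, (h.inf (h.jn k1 q1) q2 (h1 n) _).2 k2,
          (h.inf (h.jn k2 q3) q4 (h2 n) _).2 hu⟩
  constructor
  · rintro ⟨Γ, k1, k2⟩
    exact (h.inf (h.jn ((key _ _).1 k1) q5) q6 (h3 n) _).1 k2
  · intro hv
    obtain ⟨Γ, k1⟩ := e1 n
    exact ⟨Γ, (key _ _).2 k1, (h.inf (h.jn k1 q5) q6 (h3 n) _).2 hv⟩

theorem ev_pads (y : ℕ → 𝒞) : ∀ᶠ κ in residual 𝒦,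
    (∀ n, Inf (jn (κ.1 n) (enc κ.2 κ.1)) (cols κ.2) (κ.2 n)) ∧
    (∀ n, Inf (jn (κ.2 n) (enc (fun n => κ.1 (n + 1)) κ.2)) (cols fun n => κ.1 (n + 1))
      (κ.1 (n + 1))) ∧ ∀ n, Inf (jn (κ.1 n) (enc y κ.1)) (cols y) (y n) := by
  have m1 : ∀ n, Measurable fun κ : 𝒦 => κ.1 n := fun n => by fun_prop
  have m2 : ∀ n, Measurable fun κ : 𝒦 => κ.2 n := fun n => by fun_prop
  have h1 : ∀ᶠ κ in residual 𝒦, ∀ n, Inf (jn (κ.2 n) (enc κ.1 κ.2)) (cols κ.1) (κ.1 n) :=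
    ku_conv (Measurable.forall fun n => measurable_inf
      (measurable_jn (m2 n) (measurable_enc m1 m2)) (measurable_cols m1) (m1 n))
      (Eventually.of_forall fun b => ev_pad b)
  have h2 : ∀ᶠ κ in residual 𝒦, ∀ n, Inf (jn (κ.2 n) (enc (fun n => κ.1 (n + 1)) κ.2))
      (cols fun n => κ.1 (n + 1)) (κ.1 (n + 1)) :=
    ku_conv (Measurable.forall fun n => measurable_inf
      (measurable_jn (m2 n) (measurable_enc (fun n => m1 (n + 1)) m2))
      (measurable_cols fun n => m1 (n + 1)) (m1 (n + 1)))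
      (Eventually.of_forall fun a => ev_pad fun n => a (n + 1))
  filter_upwards [ev_pull continuous_swap (Homeomorph.prodComm _ _).isOpenMap h1, h2,
    ev_pull continuous_fst isOpenMap_fst (ev_pad y)] with κ k1 k2 k3
  exact ⟨k1, k2, k3⟩

/-- The definition of a relation from an enumeration, by the category quantifier. -/
def Def (f : PR → 𝒞 → 𝒞) (E : ℕ → 𝒞) (L : ℕ) (τ : ℕ → 𝒞) (V : Set 𝒦) (m : Fin 8 → PR)
    (u v : 𝒞) : Prop :=
  ∀ᶠ w in residual ((ℕ → ℕ) × 𝒦), w.2 ∈ V → ∃ n, ov L τ (fun j => E (w.1 j)) n = u ∧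
    Val (fun i => f (m i) (par (ov L τ fun j => E (w.1 j)) w.2 i)) n v

theorem measurable_def {Z : Type} [TopologicalSpace Z] [MeasurableSpace Z] [BorelSpace Z]
    {f : PR → 𝒞 → 𝒞} (hf : ∀ Γ, Measurable (f Γ)) {E τ : Z → ℕ → 𝒞}
    (hE : ∀ n, Measurable fun z => E z n) (hτ : ∀ n, Measurable fun z => τ z n) (L : ℕ)
    {V : Set 𝒦} (hV : IsOpen V) (m : Fin 8 → PR) {u v : Z → 𝒞} (hu : Measurable u)
    (hv : Measurable v) : Measurable fun z => Def f (E z) L (τ z) V m (u z) (v z) := by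
  have hE' : Measurable fun p : Z × ℕ => E p.1 p.2 := measurable_from_prod_countable_left hE
  have hy : ∀ n, Measurable fun p : Z × (ℕ → ℕ) × 𝒦 =>
      ov L (τ p.1) (fun j => E p.1 (p.2.1 j)) n := by
    intro n
    unfold ov
    split_ifs
    · exact (hτ n).comp measurable_fst
    · exact hE'.comp (f := fun p : Z × (ℕ → ℕ) × 𝒦 => (p.1, p.2.1 n)) (by fun_prop)
  refine measurable_ev (p := fun p : Z × (ℕ → ℕ) × 𝒦 => p.2.2 ∈ V →
    ∃ n, ov L (τ p.1) (fun j => E p.1 (p.2.1 j)) n = u p.1 ∧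
      Val (fun i => f (m i) (par (ov L (τ p.1) fun j => E p.1 (p.2.1 j)) p.2.2 i)) n (v p.1)) ?_
  refine Measurable.imp ((measurableSet_setOfPred.1 hV.measurableSet).comp (by fun_prop))
    (Measurable.exists fun n => (measurable_eq (hy n) (hu.comp measurable_fst)).and
      (measurable_val (fun i => (hf _).comp (measurable_par hy (by fun_prop) i)) n
        (hv.comp measurable_fst)))

theorem Def.of_equiv {f : PR → 𝒞 → 𝒞} {E E' : ℕ → 𝒞} (β : ℕ ≃ ℕ) (hβ : ∀ n, E' (β n) = E n)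
    {L : ℕ} {τ : ℕ → 𝒞} {V : Set 𝒦} {m : Fin 8 → PR} {u v : 𝒞} (h : Def f E' L τ V m u v) :
    Def f E L τ V m u v := by
  have c : ∀ γ : ℕ ≃ ℕ, Continuous fun w : (ℕ → ℕ) × 𝒦 => ((fun j => γ (w.1 j)), w.2) := fun γ =>
    Continuous.prodMk (continuous_pi fun j =>
      (continuous_of_discreteTopology (f := γ)).comp (by fun_prop)) continuous_snd
  have := ev_pull (c β) (IsOpenMap.of_inverse (c β.symm) (fun w => by simp) fun w => by simp) h
  simp only [hβ] at this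
  exact this

theorem exists_equiv_of_range {E E' : ℕ → 𝒞} (h1 : ∀ n, {j | E j = E n}.Infinite)
    (h2 : ∀ n, {j | E' j = E' n}.Infinite) (h : Set.range E = Set.range E') :
    ∃ β : ℕ ≃ ℕ, ∀ n, E' (β n) = E n := by
  have key : ∀ c, Nonempty ({a // E a = c} ≃ {b // E' b = c}) := by
    intro c
    by_cases hc : c ∈ Set.range E
    · obtain ⟨n', hn'⟩ : c ∈ Set.range E' := h ▸ hc
      obtain ⟨n, hn⟩ := hc
      have i1 : Infinite {a // E a = c} := hn ▸ (h1 n).to_subtype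
      have i2 : Infinite {b // E' b = c} := hn' ▸ (h2 n').to_subtype
      infer_instance
    · have i1 : IsEmpty {a // E a = c} := ⟨fun a => hc ⟨a.1, a.2⟩⟩
      have i2 : IsEmpty {b // E' b = c} := ⟨fun b => hc (h ▸ ⟨b.1, b.2⟩)⟩
      exact ⟨Equiv.equivOfIsEmpty _ _⟩
  exact ⟨Equiv.ofFiberEquiv fun c => (key c).some, Equiv.ofFiberEquiv_map _⟩

theorem Def.congr_range {f : PR → 𝒞 → 𝒞} {E E' : ℕ → 𝒞} (h1 : ∀ n, {j | E j = E n}.Infinite)
    (h2 : ∀ n, {j | E' j = E' n}.Infinite) (h : Set.range E = Set.range E') (L : ℕ) (τ : ℕ → 𝒞)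
    (V : Set 𝒦) (m : Fin 8 → PR) : Def f E L τ V m = Def f E' L τ V m := by
  obtain ⟨β, hβ⟩ := exists_equiv_of_range h1 h2 h
  funext u v
  exact propext ⟨Def.of_equiv β.symm fun n => by rw [← hβ, Equiv.apply_symm_apply],
    Def.of_equiv β hβ⟩

theorem Def.congr_tau {f : PR → 𝒞 → 𝒞} {E : ℕ → 𝒞} {L : ℕ} {τ τ' : ℕ → 𝒞}
    (h : ∀ n < L, τ n = τ' n) (V : Set 𝒦) (m : Fin 8 → PR) :
    Def f E L τ V m = Def f E L τ' V m := by
  have e : ∀ y, ov L τ y = ov L τ' y := fun y => funext fun n => by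
    unfold ov
    split_ifs with hn
    · exact h n hn
    · rfl
  unfold Def
  simp only [e]

theorem ev_enum (L : ℕ) : ∀ᶠ k in residual (ℕ → ℕ), ∀ j, ∃ n, L ≤ n ∧ k n = j := by
  refine eventually_countable_forall.2 fun j => residual_of_dense_open
    (s := {k : ℕ → ℕ | ∃ n, L ≤ n ∧ k n = j}) ?_ ?_
  · rw [isOpen_iff_mem_nhds]
    rintro k ⟨n, h1, h2⟩
    exact mem_of_superset ((isOpen_cyl (n + 1) k).mem_nhds fun _ _ => rfl)
      fun k' hk' => ⟨n, h1, (hk' n (by omega)).trans h2⟩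
  · rw [dense_iff_inter_open]
    rintro U hU ⟨k, hk⟩
    obtain ⟨N, hN⟩ := exists_cyl_subset hU hk
    exact ⟨ov N k fun _ => j, hN _ fun n hn => ov_lt _ _ hn, max N L, by omega,
      ov_ge _ _ (by omega)⟩

/-- A global automorphism is definable on every countable set. -/
theorem exists_def {P : 𝒞 → 𝒞 → Prop} (h : IsGA P) {f : PR → 𝒞 → 𝒞} (hf : ∀ Γ, Measurable (f Γ))
    (hP : ∀ x, ∃ Γ, P x (f Γ x)) (E : ℕ → 𝒞) :
    ∃ (t : List ℕ) (V : countableBasis 𝒦) (m : Fin 8 → PR), ∀ u ∈ Set.range E, ∀ v ∈ Set.range E,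
      (Def f E t.length (fun n => E (t.getD n 0)) V.1 m u v ↔ P u v) := by
  set Cor : (Fin 8 → PR) → (ℕ → ℕ) × 𝒦 → Prop := fun m w => ∀ n j,
    Val (fun i => f (m i) (par (fun j => E (w.1 j)) w.2 i)) n (E j) ↔ P (E (w.1 n)) (E j) with hCor
  have hy : ∀ n, Measurable fun w : (ℕ → ℕ) × 𝒦 => E (w.1 n) := fun n =>
    (measurable_from_top (f := E)).comp (by fun_prop)
  have mC : ∀ m, Measurable (Cor m) := fun m => Measurable.forall fun n => Measurable.forall fun j =>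
    (measurable_val (fun i => (hf _).comp (measurable_par hy measurable_snd i)) n
      measurable_const).iff
      ((measurable_from_top (f := fun k => P (E k) (E j))).comp
        (f := fun w : (ℕ → ℕ) × 𝒦 => w.1 n) (by fun_prop))
  have h1 : ∀ᶠ w in residual ((ℕ → ℕ) × 𝒦), ∃ m, Cor m w := by
    refine ku_conv (Measurable.exists mC) (Eventually.of_forall fun k => ?_)
    filter_upwards [ev_pads fun j => E (k j)] with κ ⟨k1, k2, k3⟩
    choose m hm using fun i => hP (par (fun j => E (k j)) κ i)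
    exact ⟨m, fun n j => val_correct h k1 k2 k3 hm n (E j)⟩
  obtain ⟨m, h2⟩ := freq_exists (freq_of_ev h1)
  obtain ⟨U, hU, ⟨⟨t, κ⟩, ht⟩, h3⟩ := exists_open_of_freq (mC m) h2
  obtain ⟨A, B, hA, hB, htA, hκB, hAB⟩ := isOpen_prod_iff.1 hU t κ ht
  obtain ⟨L, hL⟩ := exists_cyl_subset hA htA
  obtain ⟨V, hV, hκV, hVB⟩ := (isBasis_countableBasis 𝒦).exists_subset_of_mem_open hκB hB
  have hVo := isOpen_of_mem_countableBasis hV
  have h4 : ∀ᶠ w in residual ((ℕ → ℕ) × 𝒦), w.2 ∈ V → Cor m (ov L t w.1, w.2) := by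
    filter_upwards [ev_pull ((continuous_ov L t).prodMap continuous_id)
      ((isOpenMap_ov L t).prodMap IsOpenMap.id) h3] with w hw hw'
    exact hw (hAB ⟨hL _ fun n hn => ov_lt _ _ hn, hVB hw'⟩)
  have h5 := ev_pull (X := (ℕ → ℕ) × 𝒦) continuous_fst isOpenMap_fst (ev_enum L)
  have e : ∀ k : ℕ → ℕ, (fun j => E (ov L t k j)) = ov L (fun n => E (t n)) fun j => E (k j) := by
    intro k
    funext n
    unfold ov
    split_ifs <;> rfl
  refine ⟨(List.range L).map t, ⟨V, hV⟩, m, ?_⟩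
  rintro _ ⟨iu, rfl⟩ _ ⟨iv, rfl⟩
  have hlen : ((List.range L).map t).length = L := by simp
  rw [hlen, Def.congr_tau (τ' := fun n => E (t n)) fun n hn => by
    simp [List.getD_eq_getElem?_getD, hn]]
  constructor
  · intro hd
    obtain ⟨w, hw, k1, k2⟩ := exists_of_ev_open (hVo.preimage continuous_snd) ⟨(t, κ), hκV⟩
      (h4.and hd)
    obtain ⟨n, k3, k4⟩ := k2 hw
    have k5 := k1 hw n iv
    simp only [e] at k5
    rw [← k3, ← congrFun (e w.1) n]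
    exact k5.1 k4
  · intro hp
    filter_upwards [h4, h5] with w k1 k2 hw
    obtain ⟨n, k3, k4⟩ := k2 iu
    have k5 := k1 hw n iv
    simp only [e] at k5
    refine ⟨n, by rw [ov_ge _ _ k3, k4], k5.2 ?_⟩
    rw [ov_ge _ _ k3, k4]
    exact hp

end Crest.Agent.R292
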